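import Vale.Agent.P338.R2.H101.Bp.Rd
import Vale.Agent.P338.R2.H335.Bp.Ker2
import Vale.Agent.P338.R2.H772.Bp.ConQ
import Vale.Agent.P338.R2.H293.Bp.Batch

/-!
P338, stage 3: one round with schoolbook multiplications for the constants.
-/

namespace Vale.Agent.P338.R2.H101.Bp

open Vale.Agent.P338.R2.H898
open Vale.Agent.P338.R2.H968
open Vale.Agent.P338.R2.H784
open Vale.Agent.P338.R2.H784.Fp
open Vale.Agent.P338.R2.H784.Bp
open Vale.Agent.P338.R2.H968.CallEnv (mem0 callC)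
open Vale.Agent.P338.R2.H525.Fp (Dim sPar hPar dimR)
open Vale.Agent.P338.R2.H335.Bp (cKer run_kerQ3)
open Vale.Agent.P338.R2.H772.Bp (cCon conMQ conPQ run_conMQ run_conPQ)

variable {A A₀ : MTM} {Y : Type}

theorem batchOk {W q om nu iv n p μ : ℕ} (hQ : Prm W q om nu iv) (hp : p < 2 ^ W)
    (hμ : μ < 2 ^ W) : BatchOk W q om nu iv n p μ := by
  intro N x y hN hn hx hy
  exact H293.Bp.batchB_eq hQ hN hn hp hμ hx hy

section

variable [DecidableEq (LF A.Tape A₀.Tape)] [DecidableEq (LG A.Tape A₀.Tape Y)]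
  [DecidableEq (Al A A₀)]

omit [DecidableEq (LG A.Tape A₀.Tape Y)] in
theorem kerOK (hA₀ : Multiplies A₀) (h600 : ∀ n : ℕ, 1 ≤ n → mulTime A₀ n ≤ 600 * n ^ 2) :
    KerOK A A₀ (cKer A₀) := by
  intro l W h n p w dat clk opX h
  have hW := h.hW
  have hn := h.hn
  exact (run_kerQ3 hA₀ h600 (by omega) h.hWl h.h1 h.hl h.hp h.hp1 h.hp2 h.hw h.hwp dat clk
    opX).mono (Nat.mul_le_mul_left _ (by omega))

omit [DecidableEq (LF A.Tape A₀.Tape)] in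
theorem conOK_M (hA₀ : Multiplies A₀) (h600 : ∀ n : ℕ, 1 ≤ n → mulTime A₀ n ≤ 600 * n ^ 2) :
    ConOK A A₀ Y (conMQ A A₀) conM (cCon A₀) := by
  intro l W h n p w q om nu iv dat x h
  have hW := h.hW
  exact run_conMQ hA₀ h600 (by omega) h.hWl h.h1 h.hl h.hp h.hp1 h.hp2 h.hw h.hwp h.hn dat
    _ _ _ _ (bZ A A₀ W n q om nu iv (bw A A₀ x) (nl A A₀) (nl A A₀) (nl A A₀)) rfl rfl rfl

omit [DecidableEq (LF A.Tape A₀.Tape)] in
theorem conOK_P (hA₀ : Multiplies A₀) (h600 : ∀ n : ℕ, 1 ≤ n → mulTime A₀ n ≤ 600 * n ^ 2) :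
    ConOK A A₀ Y (conPQ A A₀) conP (cCon A₀) := by
  intro l W h n p w q om nu iv dat x h
  have hW := h.hW
  exact run_conPQ hA₀ h600 (by omega) h.hWl h.h1 h.hl h.hp h.hp1 h.hp2 h.hw h.hwp h.hn dat
    _ _ _ _ (bZ A A₀ W n q om nu iv (bw A A₀ x) (nl A A₀) (nl A A₀) (nl A A₀)) rfl rfl rfl

/-- **One round**, from the multiplication of long files. -/
theorem roundOK (hA : Multiplies A) (hA₀ : Multiplies A₀)
    (h600 : ∀ n : ℕ, 1 ≤ n → mulTime A₀ n ≤ 600 * n ^ 2) {lg : PG A A₀ Y} {c : ℕ} {τ : ℕ → ℕ}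
    (hL : LongOK lg c τ) :
    RoundOK (roundG A A₀ Y (conMQ A A₀) (conPQ A A₀) lg)
      (2 * (callC A + 30) + 2 * cKer A₀ + cCon A₀ + cCon A₀ + 608 * c + 1000) τ :=
  run_roundG hA (kerOK hA₀ h600) (conOK_M hA₀ h600) (conOK_P hA₀ h600) hL
    fun hQ hp hμ => batchOk hQ hp hμ

end

end Vale.Agent.P338.R2.H101.Bp
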