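import Vale.Agent.P338.R2.H101.Bp.Equal

/-!
P338, stage 3: one round on the stored matrix in terms of the batch multiplication.
-/

namespace Vale.Agent.P338.R2.H101.Bp

open H778 (val bits slots)
open H525 (slotAt mulBits zeros dBits)
open H525.Fp
open H784.Bp

theorem jB_facts {W n : ℕ} (hW : 1 ≤ W) (hn : 400 * W ≤ n) : 1 ≤ jB W n ∧
    400 * jB W n * W ≤ n ∧ ∀ T, T * W ≤ n → T ≤ 800 * jB W n := by
  unfold jB
  have h0 : 0 < 400 * W := by omega
  have h1 : 1 ≤ n / (400 * W) := (Nat.one_le_div_iff h0).2 hn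
  have h2 : n / (400 * W) * (400 * W) ≤ n := Nat.div_mul_le_self _ _
  have h3 : n < 400 * W * (n / (400 * W) + 1) := Nat.lt_mul_div_succ n h0
  refine ⟨h1, ?_, ?_⟩
  · calc 400 * (n / (400 * W)) * W = n / (400 * W) * (400 * W) := by ring
      _ ≤ n := h2
  · intro T hT
    set J := n / (400 * W) with hJ
    have h4 : T * W < 800 * J * W := by
      calc T * W ≤ n := hT
        _ < 400 * W * (J + 1) := h3
        _ = 400 * (J + 1) * W := by ring
        _ ≤ 800 * J * W := Nat.mul_le_mul_right _ (by omega)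
    exact (lt_of_mul_lt_mul_right h4 (Nat.zero_le _)).le

/-- The sizes of the files of words of a round. -/
theorem dimR_words (l W h p w n : ℕ) (hW32 : 32 ≤ W) (h1 : hPar W + sPar W ≤ h) (hl : h ≤ l)
    (hp1 : 1 ≤ p) (hp2 : p ≤ 4 * 2 ^ sPar W) (hn : 576 * 4 ^ l ≤ n) :
    tM (dimR l W h p w) * W ≤ n ∧ tP (dimR l W h p w) * W ≤ n ∧
      tM (dimR l W h p w) * W ≤ 576 * 4 ^ l ∧ tP (dimR l W h p w) * W ≤ 32 * 4 ^ l := by
  obtain ⟨s1, s2, s3, s4, s5⟩ := dimR_slots l W h p w hW32 h1 hl hp1 hp2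
  have e1 : tM (dimR l W h p w) * W ≤ 576 * 4 ^ l := s4
  have e2 : tP (dimR l W h p w) * W ≤ 32 * 4 ^ l := s5
  exact ⟨e1.trans hn, e2.trans (by omega), e1, e2⟩

/-- **The middle pass of a round.** -/
theorem mid_dimR (l W h p w n : ℕ) (M : ℕ → ℕ → Bool) (hW32 : 32 ≤ W)
    (h1 : hPar W + sPar W ≤ h) (hl : h ≤ l)
    (hp : p.Prime) (hp1 : 2 * 2 ^ sPar W < p) (hp2 : p ≤ 4 * 2 ^ sPar W)
    (hw : orderOf (w : ZMod p) = p - 1) (hn : 576 * 4 ^ l ≤ n) (hnW : 400 * W ≤ n)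
    {q om nu iv : ℕ} (hB : BatchOk W q om nu iv n p (2 ^ W / p + 1)) :
    midBits (dimR l W h p w) (mulBits n (packBits (dimR l W h p w)
      (wordOf l h (sPar W) (hPar W) M)) (kerBits (dimR l W h p w))) =
    fmtM (dimR l W h p w) (longB W q om nu iv n (jB W n) p (2 ^ W / p + 1)
      (tM (dimR l W h p w)) (exM (dimR l W h p w) (mulBits n (packBits (dimR l W h p w)
        (wordOf l h (sPar W) (hPar W) M)) (kerBits (dimR l W h p w))))
      (conM (dimR l W h p w)) 800 0) := by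
  have hok := dimR_ok l W h p w hW32 hp hp1 hp2 hw
  have hin := inM_dimR l W h p w n M hW32 h1 hl (by omega) hp hp1 hp2 hw hn
  obtain ⟨j1, j2, j3⟩ := jB_facts (by omega) hnW
  have ht := (dimR_words l W h p w n hW32 h1 hl hp.pos hp2 hn).1
  exact midBits_eq_fmtM hok hin (q := q) (om := om) (nu := nu) (iv := iv) (n := n) hB j1 j2
    (j3 _ ht)

/-- **The final pass of a round.** -/
theorem post_dimR (l W h p w n : ℕ) (M : ℕ → ℕ → Bool) (hW32 : 32 ≤ W)
    (h1 : hPar W + sPar W ≤ h) (hl : h ≤ l)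
    (hp : p.Prime) (hp1 : 2 * 2 ^ sPar W < p) (hp2 : p ≤ 4 * 2 ^ sPar W)
    (hw : orderOf (w : ZMod p) = p - 1) (hn : 576 * 4 ^ l ≤ n) (hnW : 400 * W ≤ n)
    {q om nu iv : ℕ} (hB : BatchOk W q om nu iv n p (2 ^ W / p + 1)) {z : List Bool}
    (hz : z = mulBits n (midBits (dimR l W h p w) (mulBits n (packBits (dimR l W h p w)
      (wordOf l h (sPar W) (hPar W) M)) (kerBits (dimR l W h p w)))) (kerBits (dimR l W h p w))) :
    fmtP (dimR l W h p w) (longB W q om nu iv n (jB W n) p (2 ^ W / p + 1)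
      (tP (dimR l W h p w)) (exP (dimR l W h p w) z) (conP (dimR l W h p w)) 800 0) =
    dBits l (h - sPar W) M := by
  have hok := dimR_ok l W h p w hW32 hp hp1 hp2 hw
  have hin := inP_dimR l W h p w n M hW32 h1 hl (by omega) hp hp1 hp2 hw hn
  obtain ⟨j1, j2, j3⟩ := jB_facts (by omega) hnW
  have ht := (dimR_words l W h p w n hW32 h1 hl hp.pos hp2 hn).2.1
  rw [hz, ← round_dimR l W h p w n M hW32 h1 hl hp hp1 hp2 hw hn]
  exact (postBits_eq_fmtP hok hin (q := q) (om := om) (nu := nu) (iv := iv) (n := n) hB j1 j2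
    (j3 _ ht)).symm

end Vale.Agent.P338.R2.H101.Bp
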