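import Vale.Agent.P338.R2.H101.Bp.A5
import Vale.Agent.P338.R2.H321.Bp.EX
import Vale.Agent.P338.R2.H968.Bp.CopyOk
import Vale.Agent.P338.R2.H784.Bp.Piece
import Vale.Agent.P338.R2.H525.Bp.Long

/-!
P338, stage 3: one round for every machine that multiplies.
-/

namespace Vale.Agent.P338.R2.H101.Bp

open Vale.Agent.P338.R2.H898
open Vale.Agent.P338.R2.H968
open Vale.Agent.P338.R2.H784
open Vale.Agent.P338.R2.H784.Fp
open Vale.Agent.P338.R2.H784.Bp

variable {A A₀ : MTM} {Y : Type} [DecidableEq (LF A.Tape A₀.Tape)]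
  [DecidableEq (LG A.Tape A₀.Tape Y)] [DecidableEq (Al A A₀)]

/-- **One round** for every machine `A` that multiplies (`A₀`: schoolbook multiplication). -/
theorem exists_roundOK (hA : Multiplies A) (hA₀ : Multiplies A₀)
    (h600 : ∀ n : ℕ, 1 ≤ n → mulTime A₀ n ≤ 600 * n ^ 2) :
    ∃ (rd : PG A A₀ Y) (c : ℕ), RoundOK rd c gB := by
  have h1 : PieceOK (pieceP (H321.Bp.eX A A₀ Y) (H968.Bp.cC A A₀ Y))
      (13 * 21 + 9 * H321.Bp.cX A₀ + 5 * CallEnv.callC A + 200) gB :=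
    H784.Bp.pieceOK hA (H321.Bp.eX_ok hA₀ h600) H968.Bp.cC_ok
  exact ⟨_, _, roundOK hA hA₀ h600 (H525.Bp.longP_ok h1)⟩

end Vale.Agent.P338.R2.H101.Bp
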