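import Vale.Agent.P338.R2.H784.Fp.RoundOld

/-!
P338, stage 3: from the program of a phase to the Turing machine, the time of the small
multiplications being a function `T₀`.
-/

namespace Vale.Agent.P338.R2.H101.Bp

open Vale.Agent.P338.R2.H898
open Vale.Agent.P338.R2.H968
open Vale.Agent.P338.R2.H784
open Vale.Agent.P338.R2.H784.Fp
open Vale.Agent.P338.R2.H968.CallEnv (mem0 callC)
open Vale.Agent.P338.R2.H525 (dBits)
open Vale.Agent.P338.R2.H101 (Ph)

set_option linter.unusedSectionVars false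

/-- The cost of the transposition with `k` phases. -/
def CostT (k : ℕ) (TA T₀ : ℕ → ℕ) (n l c tB : ℕ) : Prop :=
  ∃ t h V, Ph T₀ c l k l h V ∧ h ≤ l ∧ H778.Tot l (TA n) c c n h t ∧
    tB ≤ c * (t + TA n + 4 ^ l + n + V)

theorem machine_of_specsT {A : MTM} {T₀ : ℕ → ℕ} {C₀ ρ : ℕ} {M F α : Type} [Finite M] [Fintype F]
    [DecidableEq F] [Finite α] [DecidableEq α] {d u : α} {enc : Letter → α} {dl : α → Letter}
    (hdl : ∀ a, dl (enc a) = a) (m0 : M) {j : TF → F} (hj : Function.Injective j)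
    {RR : Store M F α → Prop}
    (hRR : ∀ s s' : Store M F α, RR s → s'.m = s.m → (∀ f, (∀ x, f ≠ j x) → s'.z f = s.z f) →
      RR s')
    (hRR0 : ∀ s : Store M F α, s.m = m0 → (∀ f, (∀ x, f ≠ j x) → s.z f = ⟨[], []⟩) → RR s)
    {rd nrp f2 : Prog M F α} {c1 cn c2 k : ℕ}
    (hround : RoundSpec d u (fun b => enc (bitL b)) j rd RR (fun n => 2 * mulTime A n) c1)
    (hf2 : F2Spec k d u (fun b => enc (bitL b)) j f2 RR (mulTime A) T₀ c2)
    (hnr : NrSpec d u j nrp (NN C₀ ρ) cn) :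
    ∃ B : MTM, ∃ c : ℕ, ∀ r s : ℕ, 1 ≤ r → 1 ≤ s → ∀ N : Fin r → Fin s → Bool,
      B.Computes (matWord N) (matWord fun a b => N b a) ∧
      CostT k (mulTime A) T₀ (NN C₀ ρ (ex r s) r s) (ex r s) c (B.time (matWord N)) := by
  have henc : Function.Injective enc := fun a b h => by rw [← hdl a, ← hdl b, h]
  obtain ⟨B, hB⟩ := Comp.machine (M := M) (F := F) (α := α) d enc dl hdl m0 (j .fin) (j .fout)
    (topProg2 j enc u rd nrp f2)
  refine ⟨B, max ((8 * cn + 2000) * (c2 + 1)) (c1 + 36), fun r s hr hs N => ?_⟩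
  obtain ⟨t, t2, h', V, s', hPh, ht2, ht, hrun, hout⟩ := run_top2 (d := d) (u := u) henc hj hRR
    hRR0 hround hf2 hnr (fun l r s => le_max_right _ _) hr hs N (l := ex r s) rfl
  obtain ⟨h1, h2⟩ := hB (matWord N) (matWord fun a b => N b a) _ s' hrun hout
  have e11 : (8 * cn + 2000) * (c2 + 1) ≤ max ((8 * cn + 2000) * (c2 + 1)) (c1 + 36) :=
    le_max_left _ _
  have e12 : 2000 * (c2 + 1) ≤ (8 * cn + 2000) * (c2 + 1) := by nlinarith
  obtain ⟨t', htt', ht'⟩ := tot_mono (c := max ((8 * cn + 2000) * (c2 + 1)) (c1 + 36))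
    (le_max_right _ _) (by omega) ht.conv
  refine ⟨h1, ⟨t', h', V, Ph.mono hPh (by omega), Ph.le hPh, ht', h2.trans ?_⟩⟩
  have e1 := length_matWord_le hr N
  have e2 := length_matWord_le hs (fun a b => N b a)
  have e3 : r ≤ 2 ^ ex r s := le_two_pow_ex_left r s
  have e4 : s ≤ 2 ^ ex r s := le_two_pow_ex_right r s
  have e5 : (4 : ℕ) ^ ex r s = 2 ^ ex r s * 2 ^ ex r s := by
    rw [← mul_pow]
    norm_num
  have e6 : 1 ≤ 2 ^ ex r s := Nat.one_le_two_pow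
  have e7 : r * (s + 1) ≤ 2 * 4 ^ ex r s := by
    rw [e5]
    calc r * (s + 1) ≤ 2 ^ ex r s * (2 ^ ex r s + 2 ^ ex r s) :=
          Nat.mul_le_mul e3 (by omega)
      _ = 2 * (2 ^ ex r s * 2 ^ ex r s) := by ring
  have e8 : s * (r + 1) ≤ 2 * 4 ^ ex r s := by
    rw [e5]
    calc s * (r + 1) ≤ 2 ^ ex r s * (2 ^ ex r s + 2 ^ ex r s) :=
          Nat.mul_le_mul e4 (by omega)
      _ = 2 * (2 ^ ex r s * 2 ^ ex r s) := by ring
  have e9 : 1 ≤ 4 ^ ex r s := Nat.one_le_pow _ _ (by norm_num)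
  set D := 4 ^ ex r s
  set n := NN C₀ ρ (ex r s) r s
  have e10 : 8 * (t + t2 + (cn + 140) * D) + 4 * (matWord N).length +
      2 * (matWord fun a b => N b a).length + 13 ≤
      8 * t + 8 * t2 + (8 * cn + 1120 + 12 + 13) * D := by
    nlinarith
  refine e10.trans ((le_trans ?_ (Nat.mul_le_mul_right _ e11)))
  set Z := mulTime A n + n + D + V with hZ
  have e13 : t' + mulTime A n + D + n + V = t' + Z := by
    rw [hZ]
    ring
  rw [e13]
  have e14 : D ≤ Z := by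
    rw [hZ]
    omega
  have e15 : (8 * cn + 1120 + 12 + 13) * D ≤ (8 * cn + 1145) * Z := Nat.mul_le_mul_left _ e14
  have e16 : (8 * cn + 2000) * (c2 + 1) * (t' + Z) = (8 * cn + 2000) * t' + (8 * cn + 2000) * Z +
      c2 * (8 * cn + 2000) * t' + 8 * cn * (c2 * Z) + 2000 * (c2 * Z) := by ring
  have e17 : 8 * t ≤ (8 * cn + 2000) * t' := by nlinarith
  have e18 : (8 * cn + 1145) * Z ≤ (8 * cn + 2000) * Z := by nlinarith
  rw [e16]
  omega

/-- **The reduction, given one phase over `F_p`.** -/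
theorem costT_of_ph {A A₀ : MTM} (hA : Multiplies A) {T₀ : ℕ → ℕ} {Y : Type} [Finite Y]
    (hph : ∀ [DecidableEq (FF A.Tape Y)], ∃ (p : Prog (Mem A A₀) (FF A.Tape Y) (Al A A₀))
      (c : ℕ), PhSpec (dd A A₀) .u (fun b => Sy.l (bitL b)) (jj2 A.Tape Y) p (RQ2 A A₀ Y)
        (mulTime A) T₀ c) (k ρ : ℕ) :
    ∃ B : MTM, Transposes B ∧ ∃ c : ℕ, ∀ r s : ℕ, 1 ≤ r → 1 ≤ s → Near r s →
      ∀ N : Fin r → Fin s → Bool,
        CostT k (mulTime A) T₀ (18432 * H898.mu r s + ρ) (ex r s) c (B.time (matWord N)) := by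
  classical
  have := A.finTape
  have := A.finSym
  have := A₀.finSym
  have iF : Fintype (FF A.Tape Y) := Fintype.ofFinite _
  obtain ⟨p, c1, hp⟩ := hph
  obtain ⟨f2, c2, hf2⟩ := F2Spec_rep hp k
  obtain ⟨B, c, hB⟩ := machine_of_specsT (A := A) (T₀ := T₀) (ρ := ρ) (C₀ := 18432)
    (M := Mem A A₀) (F := FF A.Tape Y) (α := Al A A₀) (d := dd A A₀) (u := .u) (enc := Sy.l)
    (dl := Sy.dl) (fun _ => rfl) (mem0 A, mem0 A₀) (jj2_inj A.Tape Y) RQ2_stable RQ2_init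
    (roundSpec2 hA Y) hf2 (nrp_spec ρ (jj2_inj A.Tape Y))
  refine ⟨B, fun r s hr hs N => (hB r s hr hs N).1, c, fun r s hr hs h N => ?_⟩
  have := (hB r s hr hs N).2
  rw [NN_of_near hr h] at this
  exact this

end Vale.Agent.P338.R2.H101.Bp
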