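import Vale.Agent.P338.R2.H101.Bp.ExactDef
import Vale.Agent.P338.R2.H101.Bp.Machine
import Vale.Agent.P338.R2.H101.Transfer

/-!
P338, stage 3: the analytic end.
-/

namespace Vale.Agent.P338.R2.H101.Bp

open Vale.Agent.P338.R2.H898
open Vale.Agent.P338.R2.H101 (Ph)
open Vale.Agent.P338.R2.H784 (ex Near)

/-- The time of a small multiplication (amortized). -/
def tB (W : ℕ) : ℕ := (W + 1) * (Nat.log 2 W + 1)

/-- The height and the cost after one phase. -/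
theorem ph_one {c l h V : ℕ} (hp : Ph tB c l 1 l h V) :
    h ≤ l ∧ h ≤ Nat.log 2 l + 32 ∧ V ≤ c * 4 ^ l * (Nat.log 2 l + 2) := by
  cases hp with
  | @succ _ _ h₁ h₂ K V hp' a1 a2 hK =>
    cases hp' with
    | zero =>
      refine ⟨a1, a2, ?_⟩
      rw [Nat.zero_add]
      unfold tB
      calc K * ((l + 1) * (Nat.log 2 l + 1) + l) ≤ K * ((l + 1) * (Nat.log 2 l + 1) + (l + 1)) :=
            Nat.mul_le_mul_left _ (by omega)
        _ = K * (l + 1) * (Nat.log 2 l + 2) := by ring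
        _ ≤ _ := Nat.mul_le_mul_right _ hK

/-- The bound for one phase. -/
theorem costT_bound {C₀ : ℕ} (hC₀ : 32 ≤ C₀) {A : MTM} (hA : Multiplies A) {ρ : ℕ}
    (hρ : ρ < C₀) (c : ℕ) : ∃ G : ℝ, 0 ≤ G ∧ ∀ r s t' : ℕ, 2 ≤ r → 2 ≤ s → Near r s →
      CostT 1 (mulTime A) tB (C₀ * H898.mu r s + ρ) (ex r s) c t' →
      (t' : ℝ) ≤ G * (mulTime A (C₀ * H898.mu r s + ρ) +
        (r * s) * Real.log (Real.log (r * s))) := by
  obtain ⟨D, hD, hheight⟩ := Ph.height 1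
  have hE0 : 0 ≤ Real.log (D + 1) := Real.log_nonneg (by linarith)
  obtain ⟨G, hG, hloop⟩ := exists_loop_bound c (3 * C₀) D (2 * (Real.log (D + 1) + 1) * 2) hD
    (by positivity)
  refine ⟨8 * (c * G) + 3 * c + 1024 * (c * c), by positivity, ?_⟩
  intro r s t' hr hs hnear hcost
  obtain ⟨t, h, V, hph, hhl, htot, htB⟩ := hcost
  obtain ⟨-, -, hV⟩ := ph_one hph
  obtain ⟨f1, f2, f3, f4⟩ := size_facts hA hC₀ hρ hr hs hnear
  set n := C₀ * H898.mu r s + ρ with hn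
  have hl1 : 1 ≤ ex r s := one_le_ex hr
  have hll := H207.log_ex_le hr hs hnear
  set l := ex r s with hl
  have h4 : (4 : ℝ) ^ l ≤ 16 * ((r : ℝ) * s) := by
    have := H784.four_pow_ex_le (show 1 ≤ r by omega) hnear
    rw [← hl] at this
    exact_mod_cast this
  have hx4 : (4 : ℝ) ≤ (r : ℝ) * s := by
    have : 2 * 2 ≤ r * s := Nat.mul_le_mul hr hs
    exact_mod_cast this
  set x : ℝ := (r : ℝ) * s with hx
  have hrs : (0 : ℝ) ≤ x := by positivity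
  have hY : 0 ≤ ilog (1 + 1) x := ilog_nonneg hrs
  have g1 := hheight tB c l h V x hrs f4 hph
  have g2 := natLog_le D _ hD hY g1
  have g3 := mul_le_mulTime hA (show 1 ≤ C₀ by omega) ρ (show 1 ≤ r by omega)
    (show 1 ≤ s by omega)
  rw [← hn] at g3
  have g4 := hloop l (mulTime A n) n h t 0 x _ hrs hY h4 g3 f2 g1 g2 htot
  set T : ℝ := (mulTime A n : ℝ) with hT
  have hT0 : 0 ≤ T := Nat.cast_nonneg _
  have hc : (0 : ℝ) ≤ c := Nat.cast_nonneg _
  have e1 : (4 : ℝ) ^ l ≤ T := by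
    have : 4 ^ l ≤ mulTime A n := f1.trans f3
    rw [hT]
    exact_mod_cast this
  have e2 : (n : ℝ) ≤ T := by
    rw [hT]
    exact_mod_cast f3
  have e3 : (t' : ℝ) ≤ c * (t + T + 4 ^ l + n + V) := by
    rw [hT]
    exact_mod_cast htB
  have hLL := loglog_nonneg hx4
  have hi2 := ilog_two_le hx4
  set Y : ℝ := Real.log (Real.log x) with hYd
  have e4 : x * ilog (1 + 1) x ≤ 8 * (x * Y) := by
    have := mul_le_mul_of_nonneg_left hi2 hrs
    linarith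
  have e5 : (t : ℝ) ≤ G * (T + 8 * (x * Y)) := by
    refine g4.trans (mul_le_mul_of_nonneg_left ?_ hG)
    simp only [Nat.cast_zero, zero_add, one_mul, pow_zero, div_one]
    linarith
  have e6 : (Nat.log 2 l : ℝ) + 2 ≤ 64 * Y := by
    have b1 := log_add_two_le_pow hx4
    have b2 : (Nat.log 2 l : ℝ) ≤ Nat.log 2 (l + 1) := by
      exact_mod_cast Nat.log_mono_right (by omega)
    have b3 : (0 : ℝ) ≤ Nat.log 2 (l + 1) := Nat.cast_nonneg _
    rw [← hYd] at b1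
    linarith
  have e7 : (V : ℝ) ≤ 1024 * (c * (x * Y)) := by
    have b1 : (V : ℝ) ≤ c * 4 ^ l * (Nat.log 2 l + 2) := by exact_mod_cast hV
    calc (V : ℝ) ≤ c * 4 ^ l * (Nat.log 2 l + 2) := b1
      _ ≤ c * (16 * x) * (64 * Y) := by
          apply mul_le_mul _ e6 (by positivity) (by positivity)
          exact mul_le_mul_of_nonneg_left h4 hc
      _ = _ := by ring
  have hxY : 0 ≤ x * Y := mul_nonneg hrs hLL
  have k1 : (c : ℝ) * t ≤ c * (G * (T + 8 * (x * Y))) := mul_le_mul_of_nonneg_left e5 hc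
  have k2 : (c : ℝ) * V ≤ c * (1024 * (c * (x * Y))) := mul_le_mul_of_nonneg_left e7 hc
  have k3 : (c : ℝ) * (T + 4 ^ l + n) ≤ c * (3 * T) := by
    apply mul_le_mul_of_nonneg_left _ hc
    linarith
  have k4 : (8 * ((c : ℝ) * G) + 3 * c + 1024 * (c * c)) * (T + x * Y) =
      c * (G * (T + 8 * (x * Y))) + c * (3 * T) + c * (1024 * (c * (x * Y))) +
      (7 * (c * G * T) + 3 * (c * (x * Y)) + 1024 * (c * c * T)) := by ring
  have k5 : 0 ≤ 7 * ((c : ℝ) * G * T) + 3 * (c * (x * Y)) + 1024 * (c * c * T) := by positivity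
  have k6 : (c : ℝ) * (t + T + 4 ^ l + n + V) = c * t + c * (T + 4 ^ l + n) + c * V := by ring
  rw [k4]
  linarith

/-- **The inequality.** -/
theorem exactIneq_of_costT {C₀ : ℕ} (hC₀ : 32 ≤ C₀) {A : MTM} (hA : Multiplies A)
    (h : ∀ ρ < C₀, ∃ B : MTM, Transposes B ∧ ∃ c : ℕ, ∀ r s : ℕ, 1 ≤ r → 1 ≤ s → Near r s →
      ∀ N : Fin r → Fin s → Bool,
        CostT 1 (mulTime A) tB (C₀ * H898.mu r s + ρ) (ex r s) c (B.time (matWord N))) :
    ExactIneq C₀ A := by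
  intro ρ hρ
  obtain ⟨B, hB, c, hc⟩ := h ρ hρ
  obtain ⟨G, hG, hmain⟩ := costT_bound hC₀ hA hρ c
  refine ⟨B, hB, G, fun r s hr hs h1 h2 => ?_⟩
  obtain ⟨N, hN⟩ := H207.exists_transTime B r s
  have hnear : Near r s := ⟨h1, h2⟩
  rw [hN]
  exact hmain r s _ hr hs hnear (hc r s (by omega) (by omega) hnear N)

/-- Transfer of lower bounds. -/
theorem mulHardBy_of_exact {C₀ : ℕ} (hC₀ : 1 ≤ C₀) {A : MTM} {g : ℝ → ℝ} (hg : Mild g)
    (hI : ExactIneq C₀ A) (hR : TransHardBy g) : MulHardBy g A := by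
  obtain ⟨K, X, hK, hmono, hsq, hlow⟩ := hg
  obtain ⟨Y₁, hY₁⟩ := hlow 1 one_pos
  have hgpos : ∀ x : ℝ, Y₁ ≤ x → 4 ≤ x → 0 < g x := by
    intro x hx hx4
    have h1 := hY₁ x hx
    have h2 : 0 < Real.log (Real.log x) := by
      apply Real.log_pos
      have h3 : (1.38 : ℝ) ≤ Real.log 4 := by
        rw [show (4 : ℝ) = 2 ^ 2 by norm_num, Real.log_pow]
        have := Real.log_two_gt_d9
        push_cast
        linarith
      linarith [Real.log_le_log (by norm_num) hx4]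
    linarith
  have key : ∀ ρ < C₀, ∃ c : ℝ, 0 < c ∧ ∃ N : ℕ, ∀ n : ℕ, N ≤ n → n % C₀ = ρ →
      c * (n * g n) ≤ mulTime A n := by
    intro ρ hρ
    obtain ⟨B, hB, C, hBC⟩ := hI ρ hρ
    obtain ⟨c, hc, N₁, hN₁⟩ := hR B hB
    obtain ⟨Y₂, hY₂⟩ := hlow (c / 2 / (|C| + 1)) (by positivity)
    set N₂ : ℕ := max (N₁ + 2) (max (⌈X⌉₊ + ⌈Y₁⌉₊ + ⌈Y₂⌉₊ + 4) (8 * C₀ + 1)) with hN₂
    refine ⟨c / 2 / (|C| + 1) / (8 * C₀ * K), by positivity,
      C₀ * (4 * N₂ ^ 2) + C₀ + ⌈X⌉₊ + ⌈Y₁⌉₊ + 4, fun n hn hmod => ?_⟩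
    set μ := n / C₀ with hμ
    have hnμ : C₀ * μ + ρ = n := by
      rw [← hmod]
      exact Nat.div_add_mod n C₀
    have hC₀' : 0 < C₀ := by omega
    have hμ1 : 4 * N₂ ^ 2 < μ + 1 := by
      have : C₀ * (4 * N₂ ^ 2) < C₀ * (μ + 1) := by
        calc C₀ * (4 * N₂ ^ 2) ≤ n := by omega
          _ = C₀ * μ + ρ := hnμ.symm
          _ < C₀ * μ + C₀ := by omega
          _ = C₀ * (μ + 1) := by ring
      exact lt_of_mul_lt_mul_left this (Nat.zero_le _)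
    have hN₂pos : 2 ≤ N₂ := by
      have : N₁ + 2 ≤ N₂ := le_max_left _ _
      omega
    have hμpos : 1 ≤ μ := by nlinarith
    obtain ⟨r, s, hrs, h1, h2, h3, h4, h5, h6, h7⟩ := exists_mu hμpos
    have hr : N₂ ≤ r := by
      by_contra hcon
      push Not at hcon
      have : r ^ 2 < N₂ ^ 2 := Nat.pow_lt_pow_left hcon (by norm_num)
      omega
    have hs : N₂ ≤ s := by
      by_contra hcon
      push Not at hcon
      have : s ^ 2 < N₂ ^ 2 := Nat.pow_lt_pow_left hcon (by norm_num)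
      omega
    have hN₁2 : N₁ + 2 ≤ N₂ := le_max_left _ _
    have hX2 : ⌈X⌉₊ + ⌈Y₁⌉₊ + ⌈Y₂⌉₊ + 4 ≤ N₂ := (le_max_left _ _).trans (le_max_right _ _)
    have h8C : 8 * C₀ + 1 ≤ N₂ := (le_max_right _ _).trans (le_max_right _ _)
    have g1 := hN₁ r s (by omega) (by omega) h1 h2
    have g2 := hBC r s (by omega) (by omega) h1 h2
    rw [hrs, hnμ] at g2
    have hsR : (1 : ℝ) ≤ s := by exact_mod_cast h7
    have hr0 : (0 : ℝ) ≤ r := Nat.cast_nonneg r
    have hrx : (r : ℝ) ≤ (r : ℝ) * s := by nlinarith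
    have hrR : (⌈X⌉₊ : ℝ) + ⌈Y₁⌉₊ + ⌈Y₂⌉₊ + 4 ≤ r := by
      exact_mod_cast (by omega : ⌈X⌉₊ + ⌈Y₁⌉₊ + ⌈Y₂⌉₊ + 4 ≤ r)
    have hX0 : X ≤ ⌈X⌉₊ := Nat.le_ceil X
    have hY10 : Y₁ ≤ ⌈Y₁⌉₊ := Nat.le_ceil Y₁
    have hY20 : Y₂ ≤ ⌈Y₂⌉₊ := Nat.le_ceil Y₂
    have p1 : (0 : ℝ) ≤ ⌈X⌉₊ := Nat.cast_nonneg _
    have p2 : (0 : ℝ) ≤ ⌈Y₁⌉₊ := Nat.cast_nonneg _
    have p3 : (0 : ℝ) ≤ ⌈Y₂⌉₊ := Nat.cast_nonneg _
    have h8x : 8 * (C₀ : ℝ) ≤ (r : ℝ) * s := by
      have e2 : ((8 * C₀ : ℕ) : ℝ) ≤ r := by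
        exact_mod_cast (by omega : 8 * C₀ ≤ r)
      push_cast at e2
      linarith
    have hrsn : (n : ℝ) ≤ 8 * C₀ * ((r : ℝ) * s) := by
      have : n ≤ 8 * C₀ * (r * s) := by
        calc n = C₀ * μ + ρ := hnμ.symm
          _ ≤ C₀ * μ + C₀ := by omega
          _ = C₀ * (μ + 1) := by ring
          _ ≤ C₀ * (8 * (r * s)) := by gcongr; omega
          _ = 8 * C₀ * (r * s) := by ring
      exact_mod_cast this
    have hnR : (⌈X⌉₊ : ℝ) + ⌈Y₁⌉₊ + 4 ≤ n := by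
      exact_mod_cast (by omega : ⌈X⌉₊ + ⌈Y₁⌉₊ + 4 ≤ n)
    set x : ℝ := (r : ℝ) * s with hx
    have hx0 : 0 ≤ x := by positivity
    have ha : X ≤ x := by linarith
    set T : ℝ := (mulTime A n : ℝ) with hT
    have hT0 : 0 ≤ T := Nat.cast_nonneg _
    have hXn : X ≤ n := by linarith
    have hgx : 0 < g x := hgpos x (by linarith) (by linarith)
    have hgn : 0 < g n := hgpos n (by linarith) (by linarith)
    have hll := hY₂ x (by linarith)
    have hll0 := loglog_nonneg (x := x) (by linarith)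
    have hD : 0 < |C| + 1 := by positivity
    have g3 : c / 2 * (x * g x) ≤ (|C| + 1) * T := by
      have a1 : C * (T + x * Real.log (Real.log x)) ≤
          (|C| + 1) * (T + x * Real.log (Real.log x)) := by
        apply mul_le_mul_of_nonneg_right _ (by positivity)
        linarith [le_abs_self C]
      have a2 : (|C| + 1) * (x * Real.log (Real.log x)) ≤ c / 2 * (x * g x) := by
        calc (|C| + 1) * (x * Real.log (Real.log x))
            ≤ (|C| + 1) * (x * (c / 2 / (|C| + 1) * g x)) := by gcongr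
          _ = c / 2 * (x * g x) := by
              field_simp
      have a5 : (|C| + 1) * (T + x * Real.log (Real.log x)) =
          (|C| + 1) * T + (|C| + 1) * (x * Real.log (Real.log x)) := by ring
      have a6 : c * (x * g x) = c / 2 * (x * g x) + c / 2 * (x * g x) := by ring
      linarith
    have g4 : g n ≤ K * g x := by
      have a1 : (n : ℝ) ≤ x ^ 2 := by
        calc (n : ℝ) ≤ 8 * C₀ * x := hrsn
          _ ≤ x * x := mul_le_mul_of_nonneg_right h8x hx0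
          _ = _ := by ring
      exact (hmono n (x ^ 2) hXn a1).trans (hsq x ha)
    have hC₀R : (0 : ℝ) < C₀ := by exact_mod_cast hC₀'
    have g5 : (n : ℝ) * g n ≤ 8 * C₀ * K * (x * g x) := by
      calc (n : ℝ) * g n ≤ 8 * C₀ * x * g n := mul_le_mul_of_nonneg_right hrsn hgn.le
        _ ≤ 8 * C₀ * x * (K * g x) := mul_le_mul_of_nonneg_left g4 (by positivity)
        _ = _ := by ring
    have g6 : c / 2 / (|C| + 1) * (x * g x) ≤ T := by
      rw [div_mul_eq_mul_div, div_le_iff₀ hD]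
      linarith
    calc c / 2 / (|C| + 1) / (8 * C₀ * K) * (n * g n)
        ≤ c / 2 / (|C| + 1) / (8 * C₀ * K) * (8 * C₀ * K * (x * g x)) :=
          mul_le_mul_of_nonneg_left g5 (by positivity)
      _ = c / 2 / (|C| + 1) * (x * g x) := by
          field_simp
      _ ≤ T := g6
  obtain ⟨c, hc, N, h⟩ := exists_uniform C₀ (fun ρ c N => ∀ n : ℕ, N ≤ n → ⌈Y₁⌉₊ + 4 ≤ n →
      n % C₀ = ρ → c * (n * g n) ≤ mulTime A n) (by
      intro i c c' N N' hc' hcc hNN h n hn hn2 hmod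
      have h1 := h n (hNN.trans hn) hn2 hmod
      have h2 : 0 ≤ (n : ℝ) * g n := by
        have e1 : Y₁ ≤ ⌈Y₁⌉₊ := Nat.le_ceil Y₁
        have e2 : (⌈Y₁⌉₊ : ℝ) + 4 ≤ n := by exact_mod_cast hn2
        have e3 : (0 : ℝ) ≤ ⌈Y₁⌉₊ := Nat.cast_nonneg _
        have := hgpos n (by linarith) (by linarith)
        positivity
      exact (mul_le_mul_of_nonneg_right hcc h2).trans h1) (fun ρ hρ => by
      obtain ⟨c, hc, N, h⟩ := key ρ hρ
      exact ⟨c, hc, N, fun n hn _ hmod => h n hn hmod⟩)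
  exact ⟨c, hc, N + (⌈Y₁⌉₊ + 4), fun n hn =>
    h (n % C₀) (Nat.mod_lt _ (by omega)) n (by omega) (by omega) rfl⟩

end Vale.Agent.P338.R2.H101.Bp
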