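import Vale.Agent.P338.R2.H784.Bp.Spec

/-!
P338, stage 3: the middle and the final pass in terms of the batch multiplication (bit lists).
-/

namespace Vale.Agent.P338.R2.H101.Bp

open H778 (val bits slots)
open H525 (slotAt mulBits zeros)
open H525.Fp (tri mmN Dim)
open H784.Bp

/-! Nested lists. -/

theorem length_flatMap_const {W M : ℕ} {f : ℕ → List Bool} (hf : ∀ i < M, (f i).length = W) :
    ((List.range M).flatMap f).length = M * W := by
  induction M with
  | zero => simp
  | succ M ih =>
    rw [List.range_succ, List.flatMap_append, List.length_append,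
      ih fun i hi => hf i (by omega)]
    simp only [List.flatMap_cons, List.flatMap_nil, List.append_nil]
    rw [hf M (by omega)]
    ring

theorem slotAt_flatMap {W M : ℕ} {f : ℕ → List Bool} (hf : ∀ i < M, (f i).length = W) {t : ℕ}
    (ht : t < M) : slotAt W ((List.range M).flatMap f) t = f t := by
  obtain ⟨k, rfl⟩ : ∃ k, M = t + (1 + k) := ⟨M - t - 1, by omega⟩
  rw [List.range_add, List.flatMap_append, slotAt]
  have h1 : t * W = ((List.range t).flatMap f).length :=
    (length_flatMap_const fun i hi => hf i (by omega)).symm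
  rw [h1, List.drop_left, List.flatMap_map, List.range_add, List.flatMap_append]
  have h2 : (List.range 1).flatMap (fun a => f (t + a)) = f t := by simp
  rw [h2]
  exact List.take_left' (hf t (by omega))

/-- Five nested loops are one loop. -/
theorem nest5 (K Q G C E : ℕ) : ∃ dk dq dg dc de : ℕ → ℕ,
    (∀ t < K * (Q * (G * (C * E))), dk t < K ∧ dq t < Q ∧ dg t < G ∧ dc t < C ∧ de t < E) ∧
    ∀ f : ℕ → ℕ → ℕ → ℕ → ℕ → List Bool,
      ((List.range K).flatMap fun k => (List.range Q).flatMap fun q => (List.range G).flatMap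
        fun g => (List.range C).flatMap fun c => (List.range E).flatMap fun e => f k q g c e) =
      (List.range (K * (Q * (G * (C * E))))).flatMap
        fun t => f (dk t) (dq t) (dg t) (dc t) (de t) := by
  refine ⟨fun t => t / (Q * (G * (C * E))), fun t => t % (Q * (G * (C * E))) / (G * (C * E)),
    fun t => t % (Q * (G * (C * E))) % (G * (C * E)) / (C * E),
    fun t => t % (Q * (G * (C * E))) % (G * (C * E)) % (C * E) / E,
    fun t => t % (Q * (G * (C * E))) % (G * (C * E)) % (C * E) % E, ?_, ?_⟩
  · intro t ht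
    have h0 : 0 < K * (Q * (G * (C * E))) := by omega
    have hK : 0 < K := Nat.pos_of_mul_pos_right h0
    have h1 : 0 < Q * (G * (C * E)) := Nat.pos_of_mul_pos_left h0
    have h2 : 0 < G * (C * E) := Nat.pos_of_mul_pos_left h1
    have h3 : 0 < C * E := Nat.pos_of_mul_pos_left h2
    have h4 : 0 < E := Nat.pos_of_mul_pos_left h3
    refine ⟨?_, ?_, ?_, ?_, Nat.mod_lt _ h4⟩
    · exact (Nat.div_lt_iff_lt_mul h1).2 ht
    · exact (Nat.div_lt_iff_lt_mul h2).2 (Nat.mod_lt _ h1)
    · exact (Nat.div_lt_iff_lt_mul h3).2 (Nat.mod_lt _ h2)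
    · exact (Nat.div_lt_iff_lt_mul h4).2 (Nat.mod_lt _ h3)
  · intro f
    rw [H525.flatMap_range_divmod K (Q * (G * (C * E))) fun k t => f k (t / (G * (C * E)))
      (t % (G * (C * E)) / (C * E)) (t % (G * (C * E)) % (C * E) / E)
      (t % (G * (C * E)) % (C * E) % E)]
    apply List.flatMap_congr
    intro k _
    rw [H525.flatMap_range_divmod Q (G * (C * E)) fun q t => f k q (t / (C * E))
      (t % (C * E) / E) (t % (C * E) % E)]
    apply List.flatMap_congr
    intro q _
    rw [H525.flatMap_range_divmod G (C * E) fun g t => f k q g (t / E) (t % E)]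
    apply List.flatMap_congr
    intro g _
    rw [H525.flatMap_range_divmod C E fun c e => f k q g c e]

/-! Repetition. -/

theorem repB_eq {len rows c : ℕ} {f : ℕ → List Bool} (hf : ∀ i < rows, (f i).length = len) :
    repB len rows c ((List.range rows).flatMap f) =
      (List.range rows).flatMap fun i => (List.range c).flatMap fun _ => f i := by
  unfold repB
  apply List.flatMap_congr
  intro i hi
  rw [List.mem_range] at hi
  apply List.flatMap_congr
  intro _ _
  exact slotAt_flatMap hf hi

theorem repB_one {len c : ℕ} {z : List Bool} (hz : z.length = len) :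
    repB len 1 c z = (List.range c).flatMap fun _ => z := by
  unfold repB
  simp only [List.range_one, List.flatMap_cons, List.flatMap_nil, List.append_nil, Nat.zero_mul,
    List.drop_zero]
  rw [← hz, List.take_length]

theorem length_rep {W M : ℕ} {z : List Bool} (hz : z.length = W) :
    ((List.range M).flatMap fun _ => z).length = M * W :=
  length_flatMap_const fun _ _ => hz

/-- The file of constants for general sizes: rows `a q` (`q < Q`) of `C` words. -/
theorem con_eq {W K Q G C E : ℕ} (a : ℕ → ℕ → List Bool) (ha : ∀ q c, (a q c).length = W) :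
    repB (Q * G * C * E * W) 1 K (repB (C * E * W) Q G (repB W (Q * C) E
      ((List.range Q).flatMap fun q => (List.range C).flatMap fun c => a q c))) =
    (List.range K).flatMap fun _ => (List.range Q).flatMap fun q => (List.range G).flatMap
      fun _ => (List.range C).flatMap fun c => (List.range E).flatMap fun _ => a q c := by
  have h1 : repB W (Q * C) E ((List.range Q).flatMap fun q => (List.range C).flatMap
      fun c => a q c) = (List.range Q).flatMap fun q => (List.range C).flatMap fun c =>
        (List.range E).flatMap fun _ => a q c := by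
    rw [← H525.flatMap_range_divmod Q C fun q c => a q c, repB_eq fun i _ => ha _ _,
      H525.flatMap_range_divmod Q C fun q c => (List.range E).flatMap fun _ => a q c]
  have h2 : ∀ q, ((List.range C).flatMap fun c => (List.range E).flatMap fun _ => a q c).length =
      C * E * W := by
    intro q
    rw [length_flatMap_const (W := E * W) fun c _ => length_rep (ha q c)]
    ring
  rw [h1, repB_eq fun q _ => h2 q, repB_one]
  rw [length_flatMap_const (W := G * (C * E * W)) fun q _ => length_rep (h2 q)]
  ring

/-! Long files. -/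

theorem range_split (m n : ℕ) (f : ℕ → List Bool) :
    (List.range (m + n)).flatMap f =
      (List.range m).flatMap f ++ (List.range n).flatMap fun j => f (m + j) := by
  rw [List.range_add, List.flatMap_append, List.flatMap_map]

theorem cutB_eq {pad W i N T : ℕ} {f : ℕ → List Bool} (hf : ∀ i < T, (f i).length = W)
    (hi : i + N ≤ T) : cutB pad W i N ((List.range T).flatMap f) =
      padW pad W N fun j => val (f (i + j)) := by
  unfold cutB padW
  apply List.flatMap_congr
  intro j hj
  rw [List.mem_range] at hj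
  rw [slotAt_flatMap hf (by omega)]
  have := H778.bits_val (f (i + j))
  rw [hf _ (by omega)] at this
  rw [this]

/-- What is used of the batch multiplication. -/
def BatchOk (W q om nu iv n p μ : ℕ) : Prop :=
  ∀ N (x y : ℕ → ℕ), 1 ≤ N → 400 * N * W ≤ n → (∀ i < N, x i < 2 ^ W) → (∀ i < N, y i < 2 ^ W) →
    batchB W q om nu iv n N p μ (padW (padB W) W N x) (padW (padB W) W N y) =
      slots W N fun i => mmN W p μ (x i) (y i)

/-- The batch multiplication of long files. -/
theorem longB_eq {W q om nu iv n p μ J T : ℕ} (hB : BatchOk W q om nu iv n p μ) (hJ : 1 ≤ J)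
    (hJn : 400 * J * W ≤ n) {f g : ℕ → List Bool} (hf : ∀ i < T, (f i).length = W)
    (hg : ∀ i < T, (g i).length = W) (u : ℕ) : ∀ i, T - i ≤ u * J →
    longB W q om nu iv n J p μ T ((List.range T).flatMap f) ((List.range T).flatMap g) u i =
      (List.range (T - i)).flatMap fun j =>
        bits W (mmN W p μ (val (f (i + j))) (val (g (i + j)))) := by
  induction u with
  | zero =>
    intro i hi
    have : T - i = 0 := by omega
    rw [this]
    rfl
  | succ u ih =>
    intro i hi
    rw [longB]
    by_cases hT : T ≤ i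
    · have : T - i = 0 := by omega
      rw [if_pos hT, this]
      rfl
    · rw [if_neg hT]
      have hN1 : 1 ≤ min J (T - i) := by omega
      have hN2 : i + min J (T - i) ≤ T := by omega
      have hN3 : 400 * min J (T - i) * W ≤ n :=
        (Nat.mul_le_mul_right _ (Nat.mul_le_mul_left _ (min_le_left _ _))).trans hJn
      have hval : ∀ {h : ℕ → List Bool}, (∀ i < T, (h i).length = W) → ∀ j < min J (T - i),
          val (h (i + j)) < 2 ^ W := by
        intro h hh j hj
        have := H778.val_lt (h (i + j))
        rwa [hh _ (by omega)] at this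
      rw [cutB_eq hf hN2, cutB_eq hg hN2, hB _ _ _ hN1 hN3 (hval hf) (hval hg), ih (i + J) (by
        rw [Nat.succ_mul] at hi
        omega)]
      have e1 : T - i = min J (T - i) + (T - (i + J)) := by omega
      conv_rhs => rw [e1, range_split]
      congr 1
      rcases Nat.lt_or_ge (T - i) J with h1 | h1
      · have : T - (i + J) = 0 := by omega
        rw [this]
        rfl
      · apply List.flatMap_congr
        intro j _
        rw [Nat.min_eq_left h1, Nat.add_assoc]

theorem mm_eq {D : Dim} (hD : D.Ok) {z c : ℕ} (hz : z * D.p * D.p ≤ 2 ^ D.W) (hc : c < D.p) :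
    mmN D.W D.p (2 ^ D.W / D.p + 1) z c = z * c % D.p := by
  have hp := hD.hp.pos
  refine H101.FpNum.mmN_eq hp ?_
  rcases Nat.eq_zero_or_pos z with rfl | hz0
  · simp
  · calc z * c * D.p < z * D.p * D.p := by
          apply Nat.mul_lt_mul_of_pos_right _ hp
          exact Nat.mul_lt_mul_of_pos_left hc hz0
      _ ≤ _ := hz

theorem length_slotAt {W t : ℕ} {z : List Bool} (h : (t + 1) * W ≤ z.length) :
    (slotAt W z t).length = W := by
  have e : (t + 1) * W = t * W + W := by ring
  unfold slotAt
  rw [List.length_take, List.length_drop]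
  omega

/-! The middle pass. -/

/-- The number of words of the middle pass. -/
def tM (D : Dim) : ℕ := D.K * (D.Q * (D.G * (2 * D.X * D.E)))

theorem conM_eq (D : Dim) : conM D =
    (List.range D.K).flatMap fun _ => (List.range D.Q).flatMap fun q => (List.range D.G).flatMap
      fun _ => (List.range (2 * D.X)).flatMap fun c => (List.range D.E).flatMap fun _ =>
        bits D.W (D.mid q c) := by
  unfold conM tabM
  exact con_eq (fun q c => bits D.W (D.mid q c)) fun q c => H778.length_bits _ _

theorem length_conM (D : Dim) : (conM D).length = tM D * D.W := by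
  rw [conM_eq]
  simp only [List.length_flatMap, H778.length_bits, List.map_const', List.length_range,
    List.sum_replicate, smul_eq_mul]
  unfold tM
  ring

theorem length_exM (D : Dim) {z : List Bool} (hz : (1 + D.K * D.S1 * D.E) * D.W ≤ z.length) :
    (exM D z).length = tM D * D.W := by
  have h1 : exM D z = (List.range D.K).flatMap fun k => (List.range D.Q).flatMap fun q =>
      (List.range D.G).flatMap fun g => (List.range (2 * D.X)).flatMap fun c =>
      (List.range D.E).flatMap fun e => slotAt D.W z (1 + D.pos1 k (D.X + q) g c e) := rfl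
  obtain ⟨dk, dq, dg, dc, de, h2, h3⟩ := nest5 D.K D.Q D.G (2 * D.X) D.E
  rw [h1, h3, length_flatMap_const (W := D.W)]
  · rfl
  · intro t ht
    obtain ⟨g1, g2, g3, g4, g5⟩ := h2 t ht
    apply length_slotAt
    refine le_trans (Nat.mul_le_mul_right _ ?_) hz
    have := H525.Fp.pos1_lt D (dk t) (D.X + dq t) (dg t) (dc t) (de t) g1 (by omega) g3 g4 g5
    omega

/-- **The middle pass** is a batch multiplication. -/
theorem midBits_eq_fmtM {D : Dim} (hD : D.Ok) {z : List Bool} (hz : H207.Fp.InM D z)
    {q om nu iv n J u : ℕ} (hB : BatchOk D.W q om nu iv n D.p (2 ^ D.W / D.p + 1)) (hJ : 1 ≤ J)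
    (hJn : 400 * J * D.W ≤ n) (hu : tM D ≤ u * J) :
    H525.Fp.midBits D z = fmtM D (longB D.W q om nu iv n J D.p (2 ^ D.W / D.p + 1) (tM D)
      (exM D z) (conM D) u 0) := by
  obtain ⟨dk, dq, dg, dc, de, h2, h3⟩ := nest5 D.K D.Q D.G (2 * D.X) D.E
  have hp := hD.hp.pos
  have hmid : ∀ q c, D.mid q c < D.p := fun q c => Nat.mod_lt _ hp
  have hpW : D.p ≤ 2 ^ D.W := H525.Fp.p_lt_W D hD
  have ex : exM D z = (List.range (tM D)).flatMap fun t =>
      slotAt D.W z (1 + D.pos1 (dk t) (D.X + dq t) (dg t) (dc t) (de t)) :=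
    h3 fun k q g c e => slotAt D.W z (1 + D.pos1 k (D.X + q) g c e)
  have ec : conM D = (List.range (tM D)).flatMap fun t => bits D.W (D.mid (dq t) (dc t)) := by
    rw [conM_eq]
    exact h3 fun _ q _ c _ => bits D.W (D.mid q c)
  have hlen : ∀ i < tM D, (slotAt D.W z (1 + D.pos1 (dk i) (D.X + dq i) (dg i) (dc i)
      (de i))).length = D.W := by
    intro t ht
    obtain ⟨g1, g2, g3, g4, g5⟩ := h2 t ht
    apply length_slotAt
    refine le_trans (Nat.mul_le_mul_right _ ?_) hz.hl
    have := H525.Fp.pos1_lt D (dk t) (D.X + dq t) (dg t) (dc t) (de t) g1 (by omega) g3 g4 g5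
    omega
  rw [ex, ec, longB_eq hB hJ hJn hlen (fun i _ => H778.length_bits _ _) u 0 (by omega)]
  have e1 : ((List.range (tM D - 0)).flatMap fun j => bits D.W (mmN D.W D.p (2 ^ D.W / D.p + 1)
      (val (slotAt D.W z (1 + D.pos1 (dk (0 + j)) (D.X + dq (0 + j)) (dg (0 + j)) (dc (0 + j))
        (de (0 + j))))) (val (bits D.W (D.mid (dq (0 + j)) (dc (0 + j))))))) =
      (List.range (tM D)).flatMap fun t => bits D.W (val (slotAt D.W z (1 + D.pos1 (dk t)
        (D.X + dq t) (dg t) (dc t) (de t))) * D.mid (dq t) (dc t) % D.p) := by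
    rw [Nat.sub_zero]
    apply List.flatMap_congr
    intro t ht
    rw [List.mem_range] at ht
    obtain ⟨g1, g2, g3, g4, g5⟩ := h2 t ht
    rw [Nat.zero_add, H778.val_bits_of_lt (lt_of_lt_of_le (hmid _ _) hpW),
      mm_eq hD (hz.hb _ g1 _ g2 _ g3 _ g4 _ g5) (hmid _ _)]
  rw [e1]
  have e2 : ((List.range (tM D)).flatMap fun t => bits D.W (val (slotAt D.W z
      (1 + D.pos1 (dk t) (D.X + dq t) (dg t) (dc t) (de t))) * D.mid (dq t) (dc t) % D.p)) =
      (List.range D.K).flatMap fun k => (List.range D.Q).flatMap fun q => (List.range D.G).flatMap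
        fun g => (List.range (2 * D.X)).flatMap fun c => (List.range D.E).flatMap fun e =>
        bits D.W (val (slotAt D.W z (1 + D.pos1 k (D.X + q) g c e)) * D.mid q c % D.p) :=
    (h3 fun k q g c e =>
      bits D.W (val (slotAt D.W z (1 + D.pos1 k (D.X + q) g c e)) * D.mid q c % D.p)).symm
  rw [e2]
  unfold H525.Fp.midBits fmtM
  apply List.flatMap_congr
  intro k hk
  rw [List.mem_range] at hk
  congr 1
  have e3 : ∀ k < D.K, ((List.range D.Q).flatMap fun q => (List.range D.G).flatMap
        fun g => (List.range (2 * D.X)).flatMap fun c => (List.range D.E).flatMap fun e =>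
        bits D.W (val (slotAt D.W z (1 + D.pos1 k (D.X + q) g c e)) * D.mid q c % D.p)).length =
      D.Q * D.R * D.E * D.W := by
    intro k _
    simp only [List.length_flatMap, H778.length_bits, List.map_const', List.length_range,
      List.sum_replicate, smul_eq_mul]
    unfold Dim.R
    ring
  exact (slotAt_flatMap e3 hk).symm

/-! The final pass. -/

/-- The number of words of the final pass. -/
def tP (D : Dim) : ℕ := D.K * (D.X * (D.G * (D.X * D.E)))

theorem conP_eq (D : Dim) : conP D =
    (List.range D.K).flatMap fun _ => (List.range D.X).flatMap fun y => (List.range D.G).flatMap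
      fun _ => (List.range D.X).flatMap fun x => (List.range D.E).flatMap fun _ =>
        bits D.W (D.post x y) := by
  unfold conP tabP
  exact con_eq (fun y x => bits D.W (D.post x y)) fun y x => H778.length_bits _ _

theorem length_conP (D : Dim) : (conP D).length = tP D * D.W := by
  rw [conP_eq]
  simp only [List.length_flatMap, H778.length_bits, List.map_const', List.length_range,
    List.sum_replicate, smul_eq_mul]
  unfold tP
  ring

theorem length_exP (D : Dim) {z : List Bool} (hz : (1 + D.K * D.S2 * D.E) * D.W ≤ z.length) :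
    (exP D z).length = tP D * D.W := by
  have h1 : exP D z = (List.range D.K).flatMap fun k => (List.range D.X).flatMap fun y =>
      (List.range D.G).flatMap fun g => (List.range D.X).flatMap fun x =>
      (List.range D.E).flatMap fun e => slotAt D.W z (1 + D.pos2 k (D.Q + y) g (y + x) e) := rfl
  obtain ⟨dk, dq, dg, dc, de, h2, h3⟩ := nest5 D.K D.X D.G D.X D.E
  rw [h1, h3, length_flatMap_const (W := D.W)]
  · rfl
  · intro t ht
    obtain ⟨g1, g2, g3, g4, g5⟩ := h2 t ht
    apply length_slotAt
    refine le_trans (Nat.mul_le_mul_right _ ?_) hz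
    have := H525.Fp.pos2_lt D (dk t) (D.Q + dq t) (dg t) (dq t + dc t) (de t) g1 (by omega) g3
      (by omega) g5
    omega

/-- **The final pass** is a batch multiplication. -/
theorem postBits_eq_fmtP {D : Dim} (hD : D.Ok) {z : List Bool} (hz : H207.Fp.InP D z)
    {q om nu iv n J u : ℕ} (hB : BatchOk D.W q om nu iv n D.p (2 ^ D.W / D.p + 1)) (hJ : 1 ≤ J)
    (hJn : 400 * J * D.W ≤ n) (hu : tP D ≤ u * J) :
    H525.Fp.postBits D z = fmtP D (longB D.W q om nu iv n J D.p (2 ^ D.W / D.p + 1) (tP D)
      (exP D z) (conP D) u 0) := by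
  obtain ⟨dk, dq, dg, dc, de, h2, h3⟩ := nest5 D.K D.X D.G D.X D.E
  have hp := hD.hp.pos
  have hpost : ∀ x y, D.post x y < D.p := fun q c => Nat.mod_lt _ hp
  have hpW : D.p ≤ 2 ^ D.W := H525.Fp.p_lt_W D hD
  have ex : exP D z = (List.range (tP D)).flatMap fun t =>
      slotAt D.W z (1 + D.pos2 (dk t) (D.Q + dq t) (dg t) (dq t + dc t) (de t)) :=
    h3 fun k y g x e => slotAt D.W z (1 + D.pos2 k (D.Q + y) g (y + x) e)
  have ec : conP D = (List.range (tP D)).flatMap fun t => bits D.W (D.post (dc t) (dq t)) := by
    rw [conP_eq]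
    exact h3 fun _ y _ x _ => bits D.W (D.post x y)
  have hlen : ∀ i < tP D, (slotAt D.W z (1 + D.pos2 (dk i) (D.Q + dq i) (dg i) (dq i + dc i)
      (de i))).length = D.W := by
    intro t ht
    obtain ⟨g1, g2, g3, g4, g5⟩ := h2 t ht
    apply length_slotAt
    refine le_trans (Nat.mul_le_mul_right _ ?_) hz.hl
    have := H525.Fp.pos2_lt D (dk t) (D.Q + dq t) (dg t) (dq t + dc t) (de t) g1 (by omega) g3
      (by omega) g5
    omega
  rw [ex, ec, longB_eq hB hJ hJn hlen (fun i _ => H778.length_bits _ _) u 0 (by omega)]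
  have e1 : ((List.range (tP D - 0)).flatMap fun j => bits D.W (mmN D.W D.p (2 ^ D.W / D.p + 1)
      (val (slotAt D.W z (1 + D.pos2 (dk (0 + j)) (D.Q + dq (0 + j)) (dg (0 + j))
        (dq (0 + j) + dc (0 + j)) (de (0 + j)))))
        (val (bits D.W (D.post (dc (0 + j)) (dq (0 + j))))))) =
      (List.range (tP D)).flatMap fun t => bits D.W (val (slotAt D.W z (1 + D.pos2 (dk t)
        (D.Q + dq t) (dg t) (dq t + dc t) (de t))) * D.post (dc t) (dq t) % D.p) := by
    rw [Nat.sub_zero]
    apply List.flatMap_congr
    intro t ht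
    rw [List.mem_range] at ht
    obtain ⟨g1, g2, g3, g4, g5⟩ := h2 t ht
    rw [Nat.zero_add, H778.val_bits_of_lt (lt_of_lt_of_le (hpost _ _) hpW),
      mm_eq hD (hz.hb _ g1 _ g2 _ g3 _ g4 _ g5) (hpost _ _)]
  rw [e1]
  unfold fmtP
  have e3 : D.K * (D.X * (D.G * (D.X * D.E))) = tP D := rfl
  rw [e3]
  have e4 : ∀ i < tP D, (bits D.W (val (slotAt D.W z (1 + D.pos2 (dk i)
        (D.Q + dq i) (dg i) (dq i + dc i) (de i))) * D.post (dc i) (dq i) % D.p)).length =
      D.W := fun i _ => H778.length_bits _ _
  have e5 : H525.Fp.postBits D z = (List.range (tP D)).flatMap fun t =>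
      (bits D.W (val (slotAt D.W z (1 + D.pos2 (dk t) (D.Q + dq t) (dg t) (dq t + dc t)
        (de t))) * D.post (dc t) (dq t) % D.p)).drop (D.W - D.L) :=
    h3 fun k y g x e => (bits D.W (val (slotAt D.W z (1 + D.pos2 k (D.Q + y) g (y + x) e)) *
          D.post x y % D.p)).drop (D.W - D.L)
  rw [e5]
  apply List.flatMap_congr
  intro t ht
  rw [List.mem_range] at ht
  rw [slotAt_flatMap e4 ht]

end Vale.Agent.P338.R2.H101.Bp
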