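import Vale.Agent.P338.R2.H101.Bp.Asm5
import Vale.Agent.P338.R2.H282.Bp.Final
import Vale.Agent.P338.R2.H755.Bp.Main
import Vale.Agent.P338.R2.H968.School

/-!
P338, stage 3: transposition by a bounded number of large multiplications and no other
multiplications, for every machine that multiplies.
-/

namespace Vale.Agent.P338.R2.H101.Bp

open Vale.Agent.P338.R2.H898
open Vale.Agent.P338.R2.H968
open Vale.Agent.P338.R2.H784
open Vale.Agent.P338.R2.H784.Fp
open Vale.Agent.P338.R2.H784.Bp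

theorem RoundOK.mono {A A₀ : MTM} {Y : Type} [DecidableEq (LG A.Tape A₀.Tape Y)]
    {rd : PG A A₀ Y} {c c' : ℕ} {τ : ℕ → ℕ} (h : RoundOK rd c τ) (hc : c ≤ c') :
    RoundOK rd c' τ := by
  intro l W h' n p w q om nu iv M h0 h1 h2 h3 h4 h5 h6 h7 h8 h9
  exact (h M h0 h1 h2 h3 h4 h5 h6 h7 h8 h9).mono (Nat.mul_le_mul_right _ hc)

theorem ParOK.mono {A A₀ : MTM} {Y : Type} [DecidableEq (LG A.Tape A₀.Tape Y)]
    {pr : PG A A₀ Y} {c c' : ℕ} (h : ParOK pr c) (hc : c ≤ c') : ParOK pr c' := by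
  intro W S h0 h1 h2
  obtain ⟨q, om, nu, iv, h3, h4⟩ := h h0 h1 h2
  exact ⟨q, om, nu, iv, h3, h4.mono (Nat.mul_le_mul_right _ hc)⟩

theorem UnparOK.mono {A A₀ : MTM} {Y : Type} [DecidableEq (LG A.Tape A₀.Tape Y)]
    {pr : PG A A₀ Y} {c c' : ℕ} (h : UnparOK pr c) (hc : c ≤ c') : UnparOK pr c' := by
  intro W n q om nu iv S
  exact h.mono hc

/-- The parts of a phase exist. -/
theorem parts {A A₀ : MTM} (hA : Multiplies A) (hA₀ : Multiplies A₀)
    (h600 : ∀ n : ℕ, 1 ≤ n → mulTime A₀ n ≤ 600 * n ^ 2) (Y : Type) :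
    H282.Bp.Parts A A₀ Y gB := by
  intro _
  classical
  obtain ⟨rd, c, h1⟩ := exists_roundOK (Y := Y) hA hA₀ h600
  exact ⟨rd, _, _, c + H755.Bp.Cpar + 25, RoundOK.mono h1 (by omega),
    ParOK.mono H755.Bp.parOK (by omega), UnparOK.mono H755.Bp.unparOK (by omega)⟩

/-- **Transposition by a bounded number of large multiplications**, for every machine. -/
theorem exactIneq {A : MTM} (hA : Multiplies A) : ExactIneq 18432 A := by
  obtain ⟨A₀, hA₀, h600⟩ := H968.School.exists_school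
  exact H282.Bp.exactIneq_of_parts (Y := Empty) hA hA₀ (parts hA hA₀ h600 Empty)

end Vale.Agent.P338.R2.H101.Bp
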