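import Vale.Agent.P338.R2.H101.IterDef

/-!
P338: the reduction with a bounded number of large multiplications and no other multiplications,
definitions.
-/

namespace Vale.Agent.P338.R2.H898

/-- The inequality of the reduction of transposition to a bounded number of multiplications. -/
def ExactIneq (C₀ : ℕ) (A : MTM) : Prop :=
  ∀ ρ < C₀, ∃ B : MTM, Transposes B ∧ ∃ C : ℝ, ∀ r s : ℕ, 2 ≤ r → 2 ≤ s → r ≤ 4 * s → s ≤ 4 * r →
    (transTime B r s : ℝ) ≤
      C * (mulTime A (C₀ * mu r s + ρ) + r * s * Real.log (Real.log (r * s)))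

/-- `g` is eventually nondecreasing, `g (x ^ 2) = O(g x)` and `log log x = o(g x)`. -/
def Mild (g : ℝ → ℝ) : Prop :=
  ∃ K X : ℝ, 0 < K ∧ (∀ x y : ℝ, X ≤ x → x ≤ y → g x ≤ g y) ∧
    (∀ x : ℝ, X ≤ x → g (x ^ 2) ≤ K * g x) ∧
    ∀ ε : ℝ, 0 < ε → ∃ Y : ℝ, ∀ x : ℝ, Y ≤ x → Real.log (Real.log x) ≤ ε * g x

end Vale.Agent.P338.R2.H898
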