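import Vale.Agent.P338.R2.H101.Bp.RoundL

/-!
P338, stage 3: lengths of the files of a round.
-/

namespace Vale.Agent.P338.R2.H101.Bp

open H778 (val bits slots)
open H525 (slotAt mulBits zeros dBits)
open H525.Fp
open H784.Bp

theorem flat_slotAt {W : ℕ} : ∀ {T : ℕ} {x : List Bool}, x.length = T * W →
    (List.range T).flatMap (slotAt W x) = x := by
  intro T
  induction T with
  | zero =>
    intro x hx
    rw [Nat.zero_mul] at hx
    rw [List.length_eq_zero_iff.1 hx]
    rfl
  | succ T ih =>
    intro x hx
    have h1 : (x.drop W).length = T * W := by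
      rw [List.length_drop, hx, Nat.add_mul]
      omega
    have h2 := ih h1
    rw [Nat.add_comm T 1, List.range_add, List.flatMap_append, List.flatMap_map]
    have h3 : (List.range 1).flatMap (slotAt W x) = x.take W := by
      simp [slotAt]
    have h4 : (List.range T).flatMap (fun t => slotAt W x (1 + t)) = x.drop W := by
      rw [← h2]
      apply List.flatMap_congr
      intro t _
      unfold slotAt
      rw [List.drop_drop]
      congr 2
      ring
    rw [h3, h4, List.take_append_drop]

theorem length_longB {W q om nu iv n p μ J T : ℕ} (hB : BatchOk W q om nu iv n p μ) (hJ : 1 ≤ J)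
    (hJn : 400 * J * W ≤ n) {x y : List Bool} (hx : x.length = T * W) (hy : y.length = T * W)
    {u : ℕ} (hu : T ≤ u * J) : (longB W q om nu iv n J p μ T x y u 0).length = T * W := by
  have h1 : ∀ {x : List Bool}, x.length = T * W → ∀ i < T, (slotAt W x i).length = W := by
    intro x hx i hi
    apply length_slotAt
    rw [hx]
    exact Nat.mul_le_mul_right _ hi
  have h := longB_eq hB hJ hJn (f := slotAt W x) (g := slotAt W y) (h1 hx) (h1 hy) u 0
    (by omega)
  rw [flat_slotAt hx, flat_slotAt hy] at h
  rw [h, length_flatMap_const (W := W) fun i _ => H778.length_bits _ _]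
  rfl

end Vale.Agent.P338.R2.H101.Bp
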