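import Vale.Agent.P338.R2.H101.Bp.ExactDef

/-!
P338, stage 3: the logarithm is mild.
-/

namespace Vale.Agent.P338.R2.H101.Bp

open Vale.Agent.P338.R2.H898
open Filter

theorem mild_log : Mild Real.log := by
  refine ⟨2, 1, by norm_num, fun x y hx hxy => Real.log_le_log (by linarith) hxy,
    fun x _ => ?_, fun ε hε => ?_⟩
  · rw [Real.log_pow]
    norm_num
  · have h1 := (Real.isLittleO_log_id_atTop.comp_tendsto Real.tendsto_log_atTop).bound hε
    have h2 := h1.and (eventually_ge_atTop (1 : ℝ))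
    obtain ⟨Y, hY⟩ := eventually_atTop.1 h2
    refine ⟨Y, fun x hx => ?_⟩
    obtain ⟨h3, h4⟩ := hY x hx
    simp only [Function.comp, id, Real.norm_eq_abs] at h3
    rw [abs_of_nonneg (Real.log_nonneg h4)] at h3
    exact (le_abs_self _).trans h3

end Vale.Agent.P338.R2.H101.Bp
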