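import Vale.Agent.P338.R2.H101.Bp.RdG
import Vale.Agent.P338.R2.H101.Bp.LenL

/-!
P338, stage 3: one round, from the multiplication of long files.
-/

namespace Vale.Agent.P338.R2.H101.Bp

open Vale.Agent.P338.R2.H898
open Vale.Agent.P338.R2.H968
open Vale.Agent.P338.R2.H784
open Vale.Agent.P338.R2.H784.Fp
open Vale.Agent.P338.R2.H784.Bp
open Vale.Agent.P338.R2.H968.CallEnv (mem0 callC)
open Vale.Agent.P338.R2.H525 (dBits mulBits slotAt zeros)
open Vale.Agent.P338.R2.H525.Fp (Dim sPar hPar dimR packBits kerBits midBits postBits inputBits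
  wordOf)
open Vale.Agent.P338.R2.H778 (bits)
open Vale.Agent.P338.R2.H778.FpW (PN vI vA vB)
open Function (update)

/-- The conditions on the parameters in a round. -/
structure RH (l W h n p w : ℕ) : Prop where
  hW : 1024 ≤ W
  hWl : W ≤ l
  h1 : hPar W + sPar W ≤ h
  hl : h ≤ l
  hp : p.Prime
  hp1 : 2 * 2 ^ sPar W < p
  hp2 : p ≤ 4 * 2 ^ sPar W
  hw : orderOf (w : ZMod p) = p - 1
  hwp : w < p
  hn : 576 * 4 ^ l ≤ n

section specs

variable (A A₀ : MTM) (Y : Type)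

/-- The kernel pass at a linear cost. -/
def KerOK [DecidableEq (LF A.Tape A₀.Tape)] [DecidableEq (Al A A₀)] (c : ℕ) : Prop :=
  ∀ {l W h n p w : ℕ} (dat clk opX : Zip (Al A A₀)), RH l W h n p w →
    Prog.Run (dd A A₀) (kerQ A A₀)
      (sto (sB l W h n p w dat clk opX (nl A A₀) (nl A A₀))) (c * n)
      (sto (sB l W h n p w dat clk opX (bw A A₀ (kerBits (dimR l W h p w))) (nl A A₀)))

/-- Writing the constants at a linear cost. -/
def ConOK [DecidableEq (LG A.Tape A₀.Tape Y)] (cp : PG A A₀ Y) (con : Dim → List Bool) (c : ℕ) :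
    Prop :=
  ∀ {l W h n p w q om nu iv : ℕ} (dat : Zip (Al A A₀)) (x : List Bool), RH l W h n p w →
    Prog.Run (dd A A₀) cp
      (st2 Y (sB l W h n p w dat (nl A A₀) (nl A A₀) (nl A A₀) (nl A A₀))
        (bZ A A₀ W n q om nu iv (bw A A₀ x) (nl A A₀) (nl A A₀) (nl A A₀))) (c * n)
      (st2 Y (sB l W h n p w dat (nl A A₀) (nl A A₀) (nl A A₀) (nl A A₀))
        (bZ A A₀ W n q om nu iv (bw A A₀ x) (bw A A₀ (con (dimR l W h p w))) (nl A A₀)
          (nl A A₀)))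

end specs

variable {A A₀ : MTM} {Y : Type}

/-- Programs on the old files. -/
noncomputable abbrev oldG (Y : Type) (p : Prog (Mem A A₀) (LF A.Tape A₀.Tape) (Al A A₀)) :
    PG A A₀ Y := p.map (Lens.idL _) Sum.inl

section

variable [DecidableEq (LF A.Tape A₀.Tape)] [DecidableEq (LG A.Tape A₀.Tape Y)]
  [DecidableEq (Al A A₀)]

/-- One round. -/
noncomputable def roundG (A A₀ : MTM) (Y : Type) [DecidableEq (LF A.Tape A₀.Tape)]
    [DecidableEq (LG A.Tape A₀.Tape Y)] [DecidableEq (Al A A₀)] (cM cP lg : PG A A₀ Y) :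
    PG A A₀ Y :=
  .seq (oldG Y (H778.FpW.prep (jP A.Tape A₀.Tape) .u)) (.seq (oldG Y (packQ A A₀))
    (.seq (clr (og .dat)) (.seq (oldG Y (kerQ A A₀)) (.seq (mulG A A₀ Y) (.seq (exMG A A₀ Y)
      (.seq (clr (og .res)) (.seq cM (.seq lg (.seq (fmtMG A A₀ Y) (.seq (clr (ng .o))
        (.seq (oldG Y (kerQ A A₀)) (.seq (mulG A A₀ Y) (.seq (exPG A A₀ Y)
          (.seq (clr (og .res)) (.seq cP (.seq lg (.seq (fmtPG A A₀ Y) (.seq (clr (ng .o))
            (oldG Y (H778.FpW.post (jP A.Tape A₀.Tape) .u))))))))))))))))))))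

theorem round_cost {T n D c1 c2 c3 c4 cA tM tP tW a b : ℕ} (hD : 576 * D ≤ n) (hD1 : 1 ≤ D)
    (ha : a ≤ 576 * D) (hb : b ≤ 32 * D) (hM : tM ≤ 576 * D) (hP : tP ≤ 32 * D) :
    400 * D + (80 * a + 2 + (2 + (c1 * n + ((cA * (T + n) + 2) + ((64 * a + 2) +
      (2 + (c2 * n + (c4 * (T + n + tM * tW) + ((60 * a + 2) + (2 +
        (c1 * n + ((cA * (T + n) + 2) + ((60 * a + 2) + (2 + (c3 * n +
          (c4 * (T + n + tP * tW) + ((50 * b + 2) + (2 + 40 * D)))))))))))))))))) ≤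
      (2 * cA + 2 * c1 + c2 + c3 + 608 * c4 + 1000) * (T + n + D * tW) := by
  have h1 : tM * tW ≤ 576 * (D * tW) := by
    calc tM * tW ≤ 576 * D * tW := Nat.mul_le_mul_right _ hM
      _ = _ := by ring
  have h2 : tP * tW ≤ 32 * (D * tW) := by
    calc tP * tW ≤ 32 * D * tW := Nat.mul_le_mul_right _ hP
      _ = _ := by ring
  obtain ⟨S, hS⟩ : ∃ S, S = T + n + D * tW := ⟨_, rfl⟩
  have g1 : c1 * n ≤ c1 * S := Nat.mul_le_mul_left _ (by omega)
  have g2 : c2 * n ≤ c2 * S := Nat.mul_le_mul_left _ (by omega)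
  have g3 : c3 * n ≤ c3 * S := Nat.mul_le_mul_left _ (by omega)
  have g4 : c4 * (T + n + tM * tW) ≤ 576 * (c4 * S) := by
    calc c4 * (T + n + tM * tW) ≤ c4 * (576 * S) := Nat.mul_le_mul_left _ (by omega)
      _ = _ := by ring
  have g5 : c4 * (T + n + tP * tW) ≤ 32 * (c4 * S) := by
    calc c4 * (T + n + tP * tW) ≤ c4 * (32 * S) := Nat.mul_le_mul_left _ (by omega)
      _ = _ := by ring
  have g6 : cA * (T + n) ≤ cA * S := Nat.mul_le_mul_left _ (by omega)
  have h5 : (2 * cA + 2 * c1 + c2 + c3 + 608 * c4 + 1000) * S =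
      2 * (cA * S) + 2 * (c1 * S) + c2 * S + c3 * S + 608 * (c4 * S) + 1000 * S := by ring
  rw [← hS, h5]
  generalize cA * S = PA at *
  generalize c1 * S = P1 at *
  generalize c2 * S = P2 at *
  generalize c3 * S = P3 at *
  generalize c4 * S = P4 at *
  generalize cA * (T + n) = QA at *
  generalize c1 * n = Q1 at *
  generalize c2 * n = Q2 at *
  generalize c3 * n = Q3 at *
  generalize c4 * (T + n + tM * tW) = Q4 at *
  generalize c4 * (T + n + tP * tW) = Q5 at *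
  have h6 : n ≤ S := by omega
  clear hS
  linarith

theorem run_roundG (hA : Multiplies A) {cM cP lg : PG A A₀ Y} {c1 c2 c3 c4 : ℕ} {τ : ℕ → ℕ}
    (hK : KerOK A A₀ c1) (hM : ConOK A A₀ Y cM conM c2) (hP : ConOK A A₀ Y cP conP c3)
    (hL : LongOK lg c4 τ)
    (hBk : ∀ {W q om nu iv n p μ : ℕ}, Prm W q om nu iv → p < 2 ^ W → μ < 2 ^ W →
      BatchOk W q om nu iv n p μ) :
    RoundOK (roundG A A₀ Y cM cP lg) (2 * (callC A + 30) + 2 * c1 + c2 + c3 + 608 * c4 + 1000) τ := by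
  intro l W h n p w q om nu iv M hQ hWl h1 hl hp hp1 hp2 hw hwp hn
  have hW : 1024 ≤ W := hQ.hW
  have hW32 : 32 ≤ W := by omega
  have hR : RH l W h n p w := ⟨hW, hWl, h1, hl, hp, hp1, hp2, hw, hwp, hn⟩
  have hok := H525.Fp.dimR_ok l W h p w hW32 hp hp1 hp2 hw
  have h4l : 1 ≤ 4 ^ l := Nat.one_le_pow _ _ (by norm_num)
  have hl4 : l ≤ 4 ^ l := (Nat.lt_pow_self (by norm_num)).le
  have hl5 : 800 * W ≤ n := by
    have e1 : 2 * l ≤ 4 ^ l := by
      have e2 : l + 1 ≤ 2 ^ l := Nat.lt_two_pow_self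
      calc 2 * l ≤ (l + 1) * (l + 1) := by nlinarith
        _ ≤ 2 ^ l * 2 ^ l := Nat.mul_le_mul e2 e2
        _ = 4 ^ l := by rw [← mul_pow]; norm_num
    omega
  obtain ⟨z1, z2', z3⟩ := H525.Fp.dimR_sizes l W h p w hW32 h1 hl hp.pos hp2 n hn
  obtain ⟨y1, y2, y3, y4, y5⟩ := H525.Fp.dimR_slots l W h p w hW32 h1 hl hp.pos hp2
  have hin := H525.Fp.input_dimR l W h p w M h1 hl
  obtain ⟨j1, j2, j3⟩ := jB_facts (W := W) (n := n) (by omega) (by omega)
  obtain ⟨t1, t2, t3, t4⟩ := dimR_words l W h p w n hW32 h1 hl hp.pos hp2 hn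
  have hpW : p < 2 ^ W := H207.Fp.p_lt (dimR l W h p w) hok
  have hμ : 2 ^ W / p + 1 < 2 ^ W := H207.Fp.mu_lt (dimR l W h p w) hok
  have hBO : BatchOk W q om nu iv n p (2 ^ W / p + 1) := hBk hQ hpW hμ
  have l1 := H525.Fp.length_packBits (dimR l W h p w) (wordOf l h (sPar W) (hPar W) M) hok.hE
    hok.hL (fun k x g y e => H525.Fp.dimR_word l W h M p w k x g y e)
  have l2 := H525.Fp.length_kerBits (dimR l W h p w) hok.hX hok.hG hok.hE
  have l3 := H525.Fp.length_midBits (dimR l W h p w) (mulBits n (packBits (dimR l W h p w)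
    (wordOf l h (sPar W) (hPar W) M)) (kerBits (dimR l W h p w)))
  have hmid := mid_dimR l W h p w n M hW32 h1 hl hp hp1 hp2 hw hn (by omega) hBO
  have hpost := post_dimR l W h p w n M hW32 h1 hl hp hp1 hp2 hw hn (by omega) hBO
    (z := _) rfl
  set PB := packBits (dimR l W h p w) (wordOf l h (sPar W) (hPar W) M) with hPB
  set KB := kerBits (dimR l W h p w) with hKB
  set MB := midBits (dimR l W h p w) (mulBits n PB KB) with hMB
  have lM : (mulBits n PB KB).length = 2 * n := H778.length_bits _ _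
  have lP : (mulBits n MB KB).length = 2 * n := H778.length_bits _ _
  have x1 : (1 + (dimR l W h p w).K * (dimR l W h p w).S1 * (dimR l W h p w).E) * W ≤
      (mulBits n PB KB).length := by
    rw [lM, Nat.add_mul]
    have : (dimR l W h p w).K * (dimR l W h p w).S1 * (dimR l W h p w).E * W ≤ n := z1
    omega
  have x2 : (1 + (dimR l W h p w).K * (dimR l W h p w).S2 * (dimR l W h p w).E) * W ≤
      (mulBits n MB KB).length := by
    rw [lP, Nat.add_mul]
    have : (dimR l W h p w).K * (dimR l W h p w).S2 * (dimR l W h p w).E * W ≤ n := z3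
    omega
  have lxM : (exM (dimR l W h p w) (mulBits n PB KB)).length = tM (dimR l W h p w) * W :=
    length_exM (dimR l W h p w) x1
  have lxP : (exP (dimR l W h p w) (mulBits n MB KB)).length = tP (dimR l W h p w) * W :=
    length_exP (dimR l W h p w) x2
  have lcM : (conM (dimR l W h p w)).length = tM (dimR l W h p w) * W :=
    length_conM (dimR l W h p w)
  have lcP : (conP (dimR l W h p w)).length = tP (dimR l W h p w) * W :=
    length_conP (dimR l W h p w)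
  have lLM := length_longB hBO j1 j2 lxM lcM (j3 _ t1)
  have lLP := length_longB hBO j1 j2 lxP lcP (j3 _ t2)
  set XM := exM (dimR l W h p w) (mulBits n PB KB) with hXM
  set XP := exP (dimR l W h p w) (mulBits n MB KB) with hXP
  set LM := longB W q om nu iv n (jB W n) p (2 ^ W / p + 1) (tM (dimR l W h p w)) XM
    (conM (dimR l W h p w)) 800 0 with hLM
  set LP := longB W q om nu iv n (jB W n) p (2 ^ W / p + 1) (tP (dimR l W h p w)) XP
    (conP (dimR l W h p w)) 800 0 with hLP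
  have hμ' : (sB (A := A) (A₀ := A₀) l W h n p w (nl A A₀) (nl A A₀) (nl A A₀) (nl A A₀)
      (nl A A₀)).w .mu = bw A A₀ (bits W (2 ^ W / p + 1)) := rfl
  have hrest : Rest A A₀ (sB l W h n p w (nl A A₀) (nl A A₀) (nl A A₀) (nl A A₀) (nl A A₀)) :=
    ⟨rfl, rfl, rfl, rfl⟩
  have o1 : 1 ≤ tM (dimR l W h p w) := by
    unfold tM
    have := H207.Fp.Q_pos hok
    have := hok.hX
    have := hok.hG
    have := hok.hE
    exact Nat.mul_pos Nat.one_le_two_pow (Nat.mul_pos (by omega) (Nat.mul_pos hok.hG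
      (Nat.mul_pos (by omega) hok.hE)))
  have o2 : 1 ≤ tP (dimR l W h p w) := by
    unfold tP
    have := hok.hX
    exact Nat.mul_pos Nat.one_le_two_pow (Nat.mul_pos (by omega) (Nat.mul_pos hok.hG
      (Nat.mul_pos (by omega) hok.hE)))
  -- the steps
  have r1 := run_old (B := bZ A A₀ W n q om nu iv (nl A A₀) (nl A A₀) (nl A A₀) (nl A A₀))
    (Y := Y) (run_of_rp (T := A.Tape) (T₀ := A₀.Tape) (d := dd A A₀) (u := .u)
    (S := sA l W h n p w (bw A A₀ (dBits l h M)))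
    (H778.FpW.rp_prep (M := Mem A A₀) (jP_inj A.Tape A₀.Tape) (h := h) (q := p - 1) hW32 h1 hl hWl)
    rfl (mem0 A, mem0 A₀))
  have r2 := run_old (B := bZ A A₀ W n q om nu iv (nl A A₀) (nl A A₀) (nl A A₀) (nl A A₀))
    (Y := Y) (run_packQ (A := A) (A₀ := A₀) (l := l) (h := h) (n := n) (w := w) hW32 hp1 M
    (nl A A₀) (nl A A₀) (nl A A₀))
  rw [← hin, ← hPB] at r2
  have r3 := run_clrG (og .dat) (sB l W h n p w (bw A A₀ (dBits l h M)) (nl A A₀) (bw A A₀ PB)
    (nl A A₀) (nl A A₀)) (bZ A A₀ W n q om nu iv (nl A A₀) (nl A A₀) (nl A A₀) (nl A A₀)) (Y := Y)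
  rw [z2_dat] at r3
  have r4 := run_old (B := bZ A A₀ W n q om nu iv (nl A A₀) (nl A A₀) (nl A A₀) (nl A A₀))
    (Y := Y) (hK (nl A A₀) (nl A A₀) (bw A A₀ PB) hR)
  have r5 := run_mulG (Y := Y) hA (sB l W h n p w (nl A A₀) (nl A A₀) (bw A A₀ PB) (bw A A₀ KB)
    (nl A A₀)) (bZ A A₀ W n q om nu iv (nl A A₀) (nl A A₀) (nl A A₀) (nl A A₀))
    (show 1 ≤ n by omega) (x := PB) (y := KB) (by rw [l1]; exact z1) (by rw [l2]; exact z2')
    rfl rfl rfl rfl
  have r6 := run_exMG (Y := Y) (l := l) (h := h) (n := n) (w := w) hW32 hp1 (nl A A₀) (nl A A₀)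
    (nl A A₀) (nl A A₀) (bZ A A₀ W n q om nu iv (nl A A₀) (nl A A₀) (nl A A₀) (nl A A₀)) rfl
    (mulBits n PB KB) x1
  rw [← hXM] at r6
  have r7 := run_clrG (og .res) (sB l W h n p w (nl A A₀) (nl A A₀) (nl A A₀) (nl A A₀)
    (bw A A₀ (mulBits n PB KB)))
    (bZ A A₀ W n q om nu iv (bw A A₀ XM) (nl A A₀) (nl A A₀) (nl A A₀)) (Y := Y)
  rw [z2_res] at r7
  have r8 := hM (q := q) (om := om) (nu := nu) (iv := iv) (nl A A₀) XM hR
  have r9 := hL (S := sB l W h n p w (nl A A₀) (nl A A₀) (nl A A₀) (nl A A₀) (nl A A₀)) hQ rfl rfl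
    hl5 o1 t1 hrest hpW hμ rfl hμ' lxM lcM
  have r10 := run_fmtMG (Y := Y) (l := l) (h := h) (n := n) (w := w) hW32 hp1 (nl A A₀) (nl A A₀)
    (nl A A₀) (nl A A₀) (bZ A A₀ W n q om nu iv (nl A A₀) (nl A A₀) (bw A A₀ LM) (nl A A₀)) LM rfl
    (by
      rw [lLM]
      unfold tM Dim.R
      exact le_of_eq (by ring))
  rw [← hmid] at r10
  have r11 := run_clrG (ng .o) (sB l W h n p w (nl A A₀) (nl A A₀) (bw A A₀ MB) (nl A A₀)
    (nl A A₀)) (bZ A A₀ W n q om nu iv (nl A A₀) (nl A A₀) (bw A A₀ LM) (nl A A₀)) (Y := Y)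
  rw [z2_o] at r11
  have r12 := run_old (B := bZ A A₀ W n q om nu iv (nl A A₀) (nl A A₀) (nl A A₀) (nl A A₀))
    (Y := Y) (hK (nl A A₀) (nl A A₀) (bw A A₀ MB) hR)
  have r13 := run_mulG (Y := Y) hA (sB l W h n p w (nl A A₀) (nl A A₀) (bw A A₀ MB) (bw A A₀ KB)
    (nl A A₀)) (bZ A A₀ W n q om nu iv (nl A A₀) (nl A A₀) (nl A A₀) (nl A A₀))
    (show 1 ≤ n by omega) (x := MB) (y := KB) (by rw [l3]; exact z3) (by rw [l2]; exact z2')
    rfl rfl rfl rfl
  have r14 := run_exPG (Y := Y) (l := l) (h := h) (n := n) (w := w) hW32 hp1 (nl A A₀) (nl A A₀)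
    (nl A A₀) (nl A A₀) (bZ A A₀ W n q om nu iv (nl A A₀) (nl A A₀) (nl A A₀) (nl A A₀)) rfl
    (mulBits n MB KB) x2
  rw [← hXP] at r14
  have r15 := run_clrG (og .res) (sB l W h n p w (nl A A₀) (nl A A₀) (nl A A₀) (nl A A₀)
    (bw A A₀ (mulBits n MB KB)))
    (bZ A A₀ W n q om nu iv (bw A A₀ XP) (nl A A₀) (nl A A₀) (nl A A₀)) (Y := Y)
  rw [z2_res] at r15
  have r16 := hP (q := q) (om := om) (nu := nu) (iv := iv) (nl A A₀) XP hR
  have r17 := hL (S := sB l W h n p w (nl A A₀) (nl A A₀) (nl A A₀) (nl A A₀) (nl A A₀)) hQ rfl rfl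
    hl5 o2 t2 hrest hpW hμ rfl hμ' lxP lcP
  have r18 := run_fmtPG (Y := Y) (l := l) (h := h) (n := n) (w := w) hW32 hp1 (nl A A₀) (nl A A₀)
    (nl A A₀) (nl A A₀) (bZ A A₀ W n q om nu iv (nl A A₀) (nl A A₀) (bw A A₀ LP) (nl A A₀)) LP rfl
    (by
      rw [lLP]
      unfold tP
      exact le_of_eq (by ring))
  rw [hpost] at r18
  have r19 := run_clrG (ng .o) (sB l W h n p w (bw A A₀ (dBits l (h - sPar W) M)) (nl A A₀)
    (nl A A₀) (nl A A₀) (nl A A₀))
    (bZ A A₀ W n q om nu iv (nl A A₀) (nl A A₀) (bw A A₀ LP) (nl A A₀)) (Y := Y)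
  rw [z2_o] at r19
  have r20 := run_old (B := bZ A A₀ W n q om nu iv (nl A A₀) (nl A A₀) (nl A A₀) (nl A A₀))
    (Y := Y) (run_of_rp (T := A.Tape) (T₀ := A₀.Tape) (d := dd A A₀) (u := .u)
    (S := sB l W h n p w (bw A A₀ (dBits l (h - sPar W) M)) (nl A A₀) (nl A A₀) (nl A A₀)
      (nl A A₀))
    (H778.FpW.rp_post (M := Mem A A₀) (jP_inj A.Tape A₀.Tape) (l := l) (w := W) (h := h)
      (q := p - 1) (by omega) hl) rfl (mem0 A, mem0 A₀))
  refine ((r1.seq (r2.seq (r3.seq (r4.seq (r5.seq (r6.seq (r7.seq (r8.seq (r9.seq (r10.seq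
    (r11.seq (r12.seq (r13.seq (r14.seq (r15.seq (r16.seq (r17.seq (r18.seq (r19.seq
      r20))))))))))))))))))).mono ?_)
  have e2 : (dimR l W h p w).K * (((dimR l W h p w).X + (dimR l W h p w).Q) *
      ((dimR l W h p w).R * ((dimR l W h p w).E * W))) ≤ 576 * 4 ^ l := by
    refine le_trans ?_ y1
    calc (dimR l W h p w).K * (((dimR l W h p w).X + (dimR l W h p w).Q) *
          ((dimR l W h p w).R * ((dimR l W h p w).E * W))) =
        (dimR l W h p w).K * (((dimR l W h p w).X + (dimR l W h p w).Q) *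
          (dimR l W h p w).R) * (dimR l W h p w).E * W := by ring
      _ ≤ (dimR l W h p w).K * (dimR l W h p w).S1 * (dimR l W h p w).E * W := by
        gcongr
        unfold Dim.S1
        omega
  have e3 : (dimR l W h p w).K * ((dimR l W h p w).X * ((dimR l W h p w).G *
      ((dimR l W h p w).X * ((dimR l W h p w).E * W)))) ≤ 32 * 4 ^ l := by
    refine le_trans (le_of_eq ?_) t4
    unfold tP
    ring
  exact round_cost hn h4l e2 e3 t3 t4

end

end Vale.Agent.P338.R2.H101.Bp
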