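import Vale.Agent.P338.R2.H784.Bp.Goals
import Vale.Agent.P338.R2.H490.Ex

/-!
P338, stage 3: the copy passes of a round on the common files.
-/

namespace Vale.Agent.P338.R2.H101.Bp

open Vale.Agent.P338.R2.H898
open Vale.Agent.P338.R2.H968
open Vale.Agent.P338.R2.H784
open Vale.Agent.P338.R2.H784.Fp
open Vale.Agent.P338.R2.H784.Bp
open Vale.Agent.P338.R2.H968.CallEnv (mem0 callC)
open Vale.Agent.P338.R2.H525.Fp (Dim sPar hPar dimR)
open Vale.Agent.P338.R2.H806.Fp (PR)
open Vale.Agent.P338.R2.H778.FpW (PN vI vA vB)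
open Function (update)

variable {A A₀ : MTM} {Y : Type} {l W h n p w : ℕ}

theorem pos_dimR (hW : 32 ≤ W) (hp : 2 * 2 ^ sPar W < p) : H806.Fp.Pos (dimR l W h p w) := by
  have h1 : 1 ≤ 2 ^ sPar W := Nat.one_le_two_pow
  exact ⟨Nat.one_le_two_pow, Nat.one_le_two_pow, Nat.one_le_two_pow, Nat.one_le_two_pow,
    Nat.one_le_two_pow, L_lt hW, by
      show 1 ≤ p - 1
      omega⟩

/-- The rulers of the copy passes. -/
abbrev rG (A A₀ : MTM) (Y : Type) (r : PR) : LG A.Tape A₀.Tape Y := og (.r (ρP r))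

theorem rG_inj : Function.Injective (rG A A₀ Y) := fun a b hab => ρP_inj (by
  simpa [rG, lz] using hab)

variable [DecidableEq (LG A.Tape A₀.Tape Y)] [DecidableEq (Al A A₀)]

/-- The slots for the middle pass: from `res` to `z`. -/
noncomputable def exMG (A A₀ : MTM) (Y : Type) [DecidableEq (LG A.Tape A₀.Tape Y)]
    [DecidableEq (Al A A₀)] : PG A A₀ Y :=
  H490.cpass (og .res) (ng .z) (rG A A₀ Y) bt .u .k H490.exMX

/-- The slots for the final pass: from `res` to `z`. -/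
noncomputable def exPG (A A₀ : MTM) (Y : Type) [DecidableEq (LG A.Tape A₀.Tape Y)]
    [DecidableEq (Al A A₀)] : PG A A₀ Y :=
  H490.cpass (og .res) (ng .z) (rG A A₀ Y) bt .u .k H490.exPX

/-- The second operand: from `o` to `opX`. -/
noncomputable def fmtMG (A A₀ : MTM) (Y : Type) [DecidableEq (LG A.Tape A₀.Tape Y)]
    [DecidableEq (Al A A₀)] : PG A A₀ Y :=
  H490.cpass (ng .o) (og .opX) (rG A A₀ Y) bt .u .k H490.fmtMX

/-- The result: from `o` to `dat`. -/
noncomputable def fmtPG (A A₀ : MTM) (Y : Type) [DecidableEq (LG A.Tape A₀.Tape Y)]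
    [DecidableEq (Al A A₀)] : PG A A₀ Y :=
  H490.cpass (ng .o) (og .dat) (rG A A₀ Y) bt .u .k H490.fmtPX

theorem run_exMG (hW : 32 ≤ W) (hp : 2 * 2 ^ sPar W < p) (dat clk opX opY : Zip (Al A A₀))
    (B : BS (Al A A₀)) (hB : B.z = ⟨[], []⟩) (x : List Bool)
    (hx : (1 + (dimR l W h p w).K * (dimR l W h p w).S1 * (dimR l W h p w).E) * W ≤ x.length) :
    Prog.Run (dd A A₀) (exMG A A₀ Y) (st2 Y (sB l W h n p w dat clk opX opY (bw A A₀ x)) B)
      (64 * ((dimR l W h p w).K * (((dimR l W h p w).X + (dimR l W h p w).Q) *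
        ((dimR l W h p w).R * ((dimR l W h p w).E * W)))) + 2)
      (st2 Y (sB l W h n p w dat clk opX opY (bw A A₀ x))
        { B with z := bw A A₀ (exM (dimR l W h p w) x) }) := by
  have hrun := H490.run_exM (M := Mem A A₀) (F := LG A.Tape A₀.Tape Y) (α := Al A A₀)
    (d := dd A A₀) (dimR l W h p w) (pos_dimR hW hp) (og .res) (ng .z) (by simp) (rG A A₀ Y)
    rG_inj (fun r => by simp [lz]) (fun r => by simp) bt .u .k (by simp) (mem0 A, mem0 A₀)
    (z2 .u (sB l W h n p w dat clk opX opY (bw A A₀ x)) B) x _ (rulP l W h p w) rfl hB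
    (fun r => ⟨_, rfl, by rw [List.length_replicate]; rfl⟩) hx
  rw [z2_z] at hrun
  exact hrun

theorem run_exPG (hW : 32 ≤ W) (hp : 2 * 2 ^ sPar W < p) (dat clk opX opY : Zip (Al A A₀))
    (B : BS (Al A A₀)) (hB : B.z = ⟨[], []⟩) (x : List Bool)
    (hx : (1 + (dimR l W h p w).K * (dimR l W h p w).S2 * (dimR l W h p w).E) * W ≤ x.length) :
    Prog.Run (dd A A₀) (exPG A A₀ Y) (st2 Y (sB l W h n p w dat clk opX opY (bw A A₀ x)) B)
      (60 * ((dimR l W h p w).K * (((dimR l W h p w).X + (dimR l W h p w).Q) *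
        ((dimR l W h p w).R * ((dimR l W h p w).E * W)))) + 2)
      (st2 Y (sB l W h n p w dat clk opX opY (bw A A₀ x))
        { B with z := bw A A₀ (exP (dimR l W h p w) x) }) := by
  have hrun := H490.run_exP (M := Mem A A₀) (F := LG A.Tape A₀.Tape Y) (α := Al A A₀)
    (d := dd A A₀) (dimR l W h p w) (pos_dimR hW hp) (og .res) (ng .z) (by simp) (rG A A₀ Y)
    rG_inj (fun r => by simp [lz]) (fun r => by simp) bt .u .k (by simp) (mem0 A, mem0 A₀)
    (z2 .u (sB l W h n p w dat clk opX opY (bw A A₀ x)) B) x _ (rulP l W h p w) rfl hB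
    (fun r => rfl) hx
  rw [z2_z] at hrun
  exact hrun

theorem run_fmtMG (hW : 32 ≤ W) (hp : 2 * 2 ^ sPar W < p) (dat clk opY res : Zip (Al A A₀))
    (B : BS (Al A A₀)) (x : List Bool) (hB : B.o = bw A A₀ x)
    (hx : (dimR l W h p w).K * ((dimR l W h p w).Q * (dimR l W h p w).R *
      (dimR l W h p w).E * W) ≤ x.length) :
    Prog.Run (dd A A₀) (fmtMG A A₀ Y) (st2 Y (sB l W h n p w dat clk (nl A A₀) opY res) B)
      (60 * ((dimR l W h p w).K * (((dimR l W h p w).X + (dimR l W h p w).Q) *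
        ((dimR l W h p w).R * ((dimR l W h p w).E * W)))) + 2)
      (st2 Y (sB l W h n p w dat clk (bw A A₀ (fmtM (dimR l W h p w) x)) opY res) B) := by
  have hrun := H490.run_fmtM (M := Mem A A₀) (F := LG A.Tape A₀.Tape Y) (α := Al A A₀)
    (d := dd A A₀) (dimR l W h p w) (pos_dimR hW hp) (ng .o) (og .opX) (by simp) (rG A A₀ Y)
    rG_inj (fun r => by simp) (fun r => by simp [lz]) bt .u .k (by simp) (mem0 A, mem0 A₀)
    (z2 .u (sB l W h n p w dat clk (nl A A₀) opY res) B) x _ (rulP l W h p w) hB rfl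
    (fun r => ⟨_, rfl, by rw [List.length_replicate]; rfl⟩) hx
  rw [z2_opX] at hrun
  exact hrun

theorem run_fmtPG (hW : 32 ≤ W) (hp : 2 * 2 ^ sPar W < p) (clk opX opY res : Zip (Al A A₀))
    (B : BS (Al A A₀)) (x : List Bool) (hB : B.o = bw A A₀ x)
    (hx : (dimR l W h p w).K * ((dimR l W h p w).X * ((dimR l W h p w).G *
      ((dimR l W h p w).X * ((dimR l W h p w).E * W)))) ≤ x.length) :
    Prog.Run (dd A A₀) (fmtPG A A₀ Y) (st2 Y (sB l W h n p w (nl A A₀) clk opX opY res) B)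
      (50 * ((dimR l W h p w).K * ((dimR l W h p w).X * ((dimR l W h p w).G *
        ((dimR l W h p w).X * ((dimR l W h p w).E * W))))) + 2)
      (st2 Y (sB l W h n p w (bw A A₀ (fmtP (dimR l W h p w) x)) clk opX opY res) B) := by
  have hrun := H490.run_fmtP (M := Mem A A₀) (F := LG A.Tape A₀.Tape Y) (α := Al A A₀)
    (d := dd A A₀) (dimR l W h p w) (pos_dimR hW hp) (ng .o) (og .dat) (by simp) (rG A A₀ Y)
    rG_inj (fun r => by simp) (fun r => by simp [lz]) bt .u .k (by simp) (mem0 A, mem0 A₀)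
    (z2 .u (sB l W h n p w (nl A A₀) clk opX opY res) B) x _ (rulP l W h p w) hB rfl
    (fun r => ⟨_, rfl, by rw [List.length_replicate]; rfl⟩) hx
  rw [z2_dat] at hrun
  exact hrun

end Vale.Agent.P338.R2.H101.Bp
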